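import Vale.Agent.P297Y.En.Sk2
import Vale.Agent.P297Y.Alg.Cs
import Vale.Agent.P297Y.Alg.Kill
import Vale.Agent.P297Y.Alg.Smo
import Vale.Agent.P297Y.Alg.H1
import Vale.Agent.P297Y.Alg.Pp
import Vale.Agent.P297Y.Alg.Der
import Vale.Agent.P297Y.Alg.Sing
import Vale.Agent.P297Y.Alg.Penb
import Vale.Agent.P297Y.Alg.Penn
import Vale.Agent.P297Y.Alg.Pend
import Vale.Agent.P297Y.Alg.Penof
import Vale.Agent.P297Y.Alg.Conn

/-! P297, positive irregularity: the general facts on surfaces. -/

set_option linter.all false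

namespace Vale.Agent.P297Z.Sf.En

theorem api : API :=
  api_of cs (gle cs) (geq cs (pple h1le) (gle cs)) (pple h1le) der (sing der) penb (penn cs penb)
    penof (zar penb (penn cs penb) (conn (pple h1le) penb))
    (genf penb (conn (pple h1le) penb) (bert der penb (pend der penb) (sing der)))

end Vale.Agent.P297Z.Sf.En
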