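import Vale.Agent.P297Y.En.Sk2

/-! P297, positive irregularity, the end of the proof: the second pencil and the zero-cycles. -/

set_option linter.all false

namespace Vale.Agent.P297Z.Sf

open Vale.Agent.P019P (CFF Plk LL Mge gen dg dv prn)
open P025H492 (down wdv)
open Vale.Agent.P297Y.En (TORS GEN0 FIBC)

variable {K : Type} [Field K] [Algebra ℂ K] {S : Surf K} {P P' : Pen S} {X : Derivation ℂ K K}

namespace En

namespace Fn

theorem fib_eq (h : S.Api) (hs : P.Sec X P') {G : Crv S.W} {q : Plk ℂ P'.k} (hG : P'.Over G q) :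
    P'.fib q = P'.fib q G • G.cl := by
  ext C
  by_cases e : G = C
  · subst e
    simp
  · rw [(h.bas P').fib_zero C q fun hC => e (hs.uniq G C q hG hC), Finsupp.smul_apply,
      Finsupp.single_eq_of_ne (Ne.symm e), smul_zero]

theorem inter_F (h : S.Api) (hs : P.Sec X P') {G : Crv S.W} {q : Plk ℂ P'.k} (hG : P'.Over G q)
    (A : Div S.W) : inter P'.F A = P'.fib q G * inter A G.cl := by
  rw [← (h.num P').num_fib q, inter_comm, ← S.B_apply, ← S.B_apply, ← smul_eq_mul, ← map_zsmul,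
    ← fib_eq h hs hG]

theorem kill {Q : Type} [AddCommGroup Q] {c : Pt S.W → Q} (hc : S.Kill c) (C : Crv S.W) :
    P297Y.En.Kill fun w => c (S.pt C w) := fun Z hZ => by
  have h1 := hc C Z hZ
  rw [Surf.cyc, Finsupp.liftAddHom_apply] at h1
  exact h1

theorem inf_plk (L : Type) [Field L] [Algebra ℂ L] [CFF ℂ L] : Infinite (Plk ℂ L) := by
  obtain ⟨x, hx, -⟩ := CFF.ex (k := ℂ) (F := L)
  have h : ∀ a, x ≠ algebraMap ℂ L a := fun a e => hx (e ▸ isAlgebraic_algebraMap a)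
  choose p hp using fun c : ℂ => P019P.exists_zero (P019P.nc_sub h c)
  refine .of_injective p fun c d e => ?_
  rw [← P025H492.vl_eq (P := p c) (Or.inr (hp c)), e, P025H492.vl_eq (P := p d) (Or.inr (hp d))]

theorem transv (ht : P.Tg X) {C : Crv S.W} (hC : P.Hor C) {b : K} (hb : C.ord b ≠ 0) :
    X b ≠ 0 ∧ C.ord (X b) + S.vd X C + 1 = C.ord b := by
  obtain ⟨u, u0, hu⟩ := Pl.exists_ord_eq_one C.pl
  have t0 : u ^ S.vd X C ≠ 0 := zpow_ne_zero _ u0
  have e : S.vd X C = C.ord (u ^ S.vd X C) := by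
    unfold Crv.ord
    rw [Pl.ord_zpow, hu, mul_one]
  obtain ⟨h1, h2⟩ := ht.transv C hC _ t0 e b hb
  have h3 := right_ne_zero_of_mul h1
  refine ⟨h3, ?_⟩
  unfold Crv.ord at *
  rw [Pl.ord_mul _ t0 h3] at h2
  omega

theorem T_over (h : S.Api) (ht : P.Tg X) (hs : P.Sec X P') {ψ : P'.k}
    (nc : ∀ c : ℂ, ψ ≠ algebraMap ℂ P'.k c) {C : Crv S.W} {q : Plk ℂ P'.k} (hC : P'.Over C q) :
    X ψ ≠ 0 ∧ C.ord (X ψ) + S.vd X C + 1 = P'.fib q C * (wdv ℂ ψ q + 1) := by
  have hp := (h.bas P').fib_pos C q hC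
  rw [P025H492.wdv_apply nc, P025H492.wd]
  split_ifs with h0
  · set b := ψ - algebraMap ℂ P'.k (P025H492.vl q ψ) with hb
    have h1 : 1 ≤ P019P.ord q b :=
      (P025H492.sub_vl_mem h0).resolve_left (sub_ne_zero.2 (nc _))
    have h2 := (h.bas P').ord_over C q hC b
    have h3 : X b = X ψ := by
      rw [hb, AddSubgroupClass.coe_sub, map_sub]
      exact sub_eq_self.2 (X.map_algebraMap _)
    have h4 := transv ht (hs.hor C q hC) (b := b) (by rw [h2]; positivity)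
    rw [h3, h2] at h4
    rwa [sub_add_cancel]
  · have h2 := (h.bas P').ord_over C q hC ψ
    have h4 := transv ht (hs.hor C q hC) (b := ψ) (by
      rw [h2]; exact mul_ne_zero hp.ne' (by omega))
    rw [h2] at h4
    rwa [sub_add_cancel]

theorem T_hor (h : S.Api) (ht : P.Tg X) (hs : P.Sec X P') {ψ : P'.k} (h0 : X ψ ≠ 0)
    {C : Crv S.W} (hC : P'.Hor C) : (S.vd X + div S.W (X ψ)) C = 0 := by
  set T := S.vd X + div S.W (X ψ) with hT
  have h1 : ∀ C, P'.Hor C → 0 ≤ T C := fun C hC => by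
    have h2 := (h.dr.vd_least X ht.ne C).2 ⟨ψ, hC ψ, h0, rfl⟩
    rw [hT, Finsupp.add_apply, div_apply S.all.toLoc2]
    unfold Crv.ord
    omega
  have h2 : inter P'.F T = 0 := by
    obtain ⟨G, hG⟩ := (h.bas P').ex_crv (P019P.nonempty_Plk ℂ P'.k).some
    rw [inter_F h hs hG, hT, inter_lin S.all.toRR _ _ h0, hs.vd G _ hG, mul_zero]
  have h3 : ∀ C, 0 ≤ T C * inter P'.F C.cl := fun C => by
    by_cases hC : P'.Hor C
    · exact mul_nonneg (h1 C hC) ((h.num P').F_hor C hC).le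
    · rw [(h.num P').F_vert C hC, mul_zero]
  have h4 : inter P'.F T = ∑ C ∈ T.support, T C * inter P'.F C.cl := by
    conv_lhs => rw [← S.B_apply, eq_sum_single T, map_sum]
    exact Finset.sum_congr rfl fun C _ => by rw [map_zsmul, smul_eq_mul, S.B_apply]
  by_contra hc
  rw [h4, Finset.sum_eq_zero_iff_of_nonneg fun C _ => h3 C] at h2
  exact mul_ne_zero hc ((h.num P').F_hor C hC).ne' (h2 C (Finsupp.mem_support_iff.2 hc))

end Fn

theorem fin2 (tors : TORS) : FIN2 := by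
  intro K _ _ S h P X m hz P' hs Q _ c hc
  refine ⟨∅, fun p _ C _ => ⟨(inter P'.F P.F).toNat.factorial, Nat.factorial_ne_zero _, ∅,
    fun x x' hx hx' he _ => ?_⟩⟩
  obtain ⟨G, h1, hG⟩ := (h.bas P').ex_over x
  obtain ⟨G', h2, hG'⟩ := (h.bas P').ex_over x'
  obtain rfl := hs.uniq G G' _ hG (he ▸ hG')
  obtain ⟨w, rfl⟩ := (h.cs.on_iff G x).1 h1
  obtain ⟨w', rfl⟩ := (h.cs.on_iff G x').1 h2
  have : Fact (P.Hor G) := ⟨hs.hor G _ hG⟩
  have h3 : gen ℂ G.Fn ≤ 1 := by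
    have a1 := h.gle G
    have a2 := hs.vd G _ hG
    rw [hz.vd, sub_zero] at a2
    rw [Surf.ag, hs.sq G _ hG, a2] at a1
    omega
  have h4 : Module.finrank P.k G.Fn ≤ (inter P'.F P.F).toNat := by
    have a1 := (h.bas P').fib_pos G _ hG
    rw [Fn.inter_F h hs hG, (h.num P).deg G, Int.le_toNat (by positivity)]
    exact le_mul_of_one_le_left (by positivity) a1
  have h5 := hc G _ (tors P.k G.Fn _ h3 hz.gen.ge h4 w w' (by
    rw [(h.num P).down_eq, (h.num P).down_eq, hx, hx']))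
  rwa [map_zsmul, map_sub, S.cyc_single, S.cyc_single, one_smul, one_smul, natCast_zsmul] at h5

theorem finc (gen0 : GEN0) (fibc : FIBC) : FINC := by
  intro K _ _ S h P X P' hs hm Q _ c hc
  obtain ⟨T, hT⟩ := hm Q c hc
  refine ⟨T, fun p hp C hC => ?_⟩
  obtain ⟨N, N0, T', hN⟩ := hT p hp C hC
  have : Fact (P'.Hor C) := ⟨((h.bas P').dich C).resolve_right fun ⟨q, hq⟩ =>
    (h.bas P).not_hor C p hC.ov (hs.hor C q hq)⟩
  have hf : {w : Plk ℂ C.Fn | down P'.k w ∈ T'}.Finite :=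
    (T'.finite_toSet.biUnion fun q _ => P025H492.over_finite (L := C.Fn) q).subset fun w hw =>
      Set.mem_biUnion hw rfl
  have h1 : ∀ w, P.π (S.pt C w) = p := fun w =>
    (h.bas P).pi_eq C p _ hC.ov ((h.cs.on_iff C _).2 ⟨w, rfl⟩)
  have h2 : ∀ w, w ∉ hf.toFinset → ∀ z, down P'.k z = down P'.k w →
      N • (c (S.pt C z) - c (S.pt C w)) = 0 := fun w hw z hz => by
    rw [(h.num P').down_eq, (h.num P').down_eq] at hz
    refine hN _ _ (h1 z) (h1 w) hz fun e => hw ?_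
    rwa [Set.Finite.mem_toFinset, Set.mem_ofPred_eq, (h.num P').down_eq, ← hz]
  refine ⟨1 * N * Module.finrank P'.k C.Fn,
    mul_ne_zero (mul_ne_zero one_ne_zero N0) Module.finrank_pos.ne', hf.toFinset,
    fun w hw w' hw' => fibc P'.k C.Fn Q _ N 1 w w' (Fn.kill hc C) ?_ (h2 w hw) (h2 w' hw')⟩
  rw [Nat.cast_one, one_smul]
  exact gen0 _ hs.gen _ (by rw [map_sub, P019P.dg_sgl, P019P.dg_sgl, sub_self])

theorem fin1a : FIN1A := by
  intro K _ _ S h P X M m hz P' hs w a w0 he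
  obtain ⟨ψ, hψ, -⟩ := CFF.ex (k := ℂ) (F := P'.k)
  have nc : ∀ c, ψ ≠ algebraMap ℂ P'.k c := fun c e => hψ (e ▸ isAlgebraic_algebraMap c)
  choose G hG using (h.bas P').ex_crv
  have h0 : X ψ ≠ 0 := (Fn.T_over h hz.tg hs nc (hG (P019P.nonempty_Plk ℂ P'.k).some)).1
  set T := S.vd X + div S.W (X ψ) with hT
  have hh : ∀ C, P'.Hor C → T C = 0 := fun C hC => Fn.T_hor h hz.tg hs h0 hC
  have w1 : X ψ / w ≠ 0 := div_ne_zero h0 w0
  have hd : div S.W (X ψ / w) = T - P.pull a := by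
    ext C
    rw [← he, hT, Finsupp.sub_apply, Finsupp.add_apply, Finsupp.add_apply,
      div_apply S.all.toLoc2, div_apply S.all.toLoc2, div_apply S.all.toLoc2]
    unfold Crv.ord
    rw [Pl.ord_div _ h0 w0]
    ring
  obtain ⟨q, hq⟩ : ∃ q, T (G q) = 0 := by
    have := Fn.inf_plk P'.k
    have hi : Function.Injective G := fun q q' e =>
      (h.bas P').uniq (G q) q q' (hG q) (e ▸ hG q')
    obtain ⟨_, ⟨q, rfl⟩, h1⟩ := (Set.infinite_range_of_injective hi).exists_notMem_finset T.support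
    exact ⟨q, Finsupp.notMem_support_iff.1 h1⟩
  have : Fact (P.Hor (G q)) := ⟨hs.hor _ q (hG q)⟩
  have hp := (h.bas P).pull_hor _ this.out a
  have h1 : S.rst (G q) T = 0 := by
    ext y
    have h2 : ∀ C, (S.pt (G q) y).On C → T C = 0 := fun C hC => by
      rcases (h.bas P').dich C with h3 | ⟨q', h3⟩
      · exact hh C h3
      · have h4 := (h.bas P').pi_eq _ q _ (hG q) ((h.cs.on_iff _ _).2 ⟨y, rfl⟩)
        rw [(h.bas P').pi_eq C q' _ h3 hC] at h4
        rwa [hs.uniq C (G q) q (h4 ▸ h3) (hG q)]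
    exact (h.cs.rst_nonneg _ T hq y fun C hC => (h2 C hC).ge).2.2 h2
  have h2 : (G q).ord (X ψ / w) = 0 := by
    rw [← div_apply S.all.toLoc2, hd, Finsupp.sub_apply, hq, hp, sub_zero]
  have h3 : dv ℂ ((G q).rs (X ψ / w)) = -P025H492.pull (G q).Fn a := by
    rw [← h.cs.rst_div _ _ w1 h2, hd, sub_eq_add_neg, ← neg_one_zsmul, h.cs.rst_add _ _ _ hq
      (by rw [Finsupp.smul_apply, hp, smul_zero]), h1, zero_add, h.cs.rst_zsmul _ _ _ hp,
      (h.num P).rst_pull, neg_one_zsmul]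
  have h4 : (G q).rs (X ψ / w) ≠ 0 := by
    rw [Ne, (G q).rs_eq_zero ((Pl.ord_nonneg_iff _ w1).1 h2.ge), h2]
    simp [w1]
  set n := Module.finrank P.k (G q).Fn with hn
  set lam := (Algebra.norm P.k ((G q).rs (X ψ / w)))⁻¹ with hlam
  have l0 : lam ≠ 0 := inv_ne_zero (Algebra.norm_ne_zero_iff.2 h4)
  have hl : dv ℂ lam = (n : ℤ) • a := by
    rw [hlam, P019P.dv_inv, P025H492.dv_norm, h3, map_neg, neg_neg, P025H492.push_pull,
      natCast_zsmul]
  have l1 : (lam : K) ≠ 0 := by exact_mod_cast l0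
  have hm : (lam : K) * (X ψ / w) ^ n ∈ P'.k := (h.bas P').vert _ fun C hC => by
    refine (Pl.ord_nonneg_iff _ (mul_ne_zero l1 (pow_ne_zero _ w1))).1 (le_of_eq ?_)
    have a1 := div_apply S.all.toLoc2 (lam : K) C
    have a2 := div_apply S.all.toLoc2 (X ψ / w) C
    rw [← (h.bas P).pull_dv lam l0, hl, map_zsmul, Finsupp.smul_apply, smul_eq_mul] at a1
    rw [hd, Finsupp.sub_apply, hh C hC] at a2
    unfold Crv.ord at a1 a2
    rw [Pl.ord_mul _ l1 (pow_ne_zero _ w1), Pl.ord_pow, ← a1, ← a2]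
    ring
  refine ⟨ψ, X ψ / w, n, lam, ⟨_, hm⟩, T, nc, w1, hd, hh, fun C q hC => ?_,
    Module.finrank_pos.ne', l0, hl, rfl⟩
  rw [← (Fn.T_over h hz.tg hs nc hC).2, hT, Finsupp.add_apply, div_apply S.all.toLoc2,
    add_comm (S.vd X C)]

end En

end Vale.Agent.P297Z.Sf
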