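import Vale.Agent.P297Y.En.Sk2
import Vale.Agent.P297Y.Alg.Penn

/-! P297, positive irregularity, fibres of genus one: the points common to two fibres. -/

set_option linter.all false

namespace Vale.Agent.P297Z.Sf

open Vale.Agent.P019P (CFF Plk LL Mge gen dg dv prn)
open P025H492 (down wdv wd vl ram)
open Vale.Agent.P297Y.En (LEMA LEMB)

variable {K : Type} [Field K] [Algebra ℂ K] {S : Surf K}

namespace En

namespace Fin1

theorem rs_pow (C : Crv S.W) {f : K} (hf : f ∈ C.pl.ring) (n : ℕ) :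
    C.rs (f ^ n) = C.rs f ^ n := by
  induction n with
  | zero => rw [pow_zero, pow_zero, C.rs_one]
  | succ n ih => rw [pow_succ, pow_succ, C.rs_mul (pow_mem hf n) hf, ih]

theorem mem_of_ord (C : Crv S.W) {f : K} (f0 : f ≠ 0) (hf : C.ord f = 0) : f ∈ C.pl.ring :=
  (Pl.ord_nonneg_iff C.pl f0).1 hf.ge

theorem rs_ne (C : Crv S.W) {f : K} (f0 : f ≠ 0) (hf : C.ord f = 0) : C.rs f ≠ 0 := by
  rw [Ne, C.rs_eq_zero (mem_of_ord C f0 hf), hf]
  simp [f0]

theorem on_pt (hC : S.Cs) (C : Crv S.W) (y : Plk ℂ C.Fn) : (S.pt C y).On C :=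
  (hC.on_iff C _).2 ⟨y, rfl⟩

theorem rst_congr (hC : S.Cs) (C : Crv S.W) {D D' : Div S.W} (h : D C = 0) (y : Plk ℂ C.Fn)
    (he : ∀ C', (S.pt C y).On C' → D C' = D' C') : S.rst C D y = S.rst C D' y := by
  have h1 := S.eqn_spec (S.pt C y) D
  rw [hC.rst_apply C D h y _ h1, hC.rst_apply C D' ((he C (on_pt hC C y)).symm.trans h) y _
    ⟨h1.1, fun C' hC' => by
      have h2 := h1.2 C' hC'
      rwa [Finsupp.neg_apply, he C' hC', ← Finsupp.neg_apply] at h2⟩]

/-- A function on the base is constant on a fibre. -/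
theorem rs_over {P : Pen S} (hB : P.Bas) {C : Crv S.W} {p : Plk ℂ P.k} (h : P.Over C p)
    {f : P.k} (hf : 0 ≤ P019P.ord p f) : C.rs f = algebraMap ℂ C.Fn (vl p f) := by
  have h1 : (f : K) ∈ C.pl.ring := (h f).1 ((P019P.mem_iff_ord p f).2 (Or.inr hf))
  have h2 : ((f - algebraMap ℂ P.k (vl p f) : P.k) : K) = f - algebraMap ℂ K (vl p f) := rfl
  rw [← sub_eq_zero, ← C.rs_const, ← C.rs_sub h1 (C.const_mem _),
    C.rs_eq_zero (sub_mem h1 (C.const_mem _)), ← h2]
  rcases P019P.mem_Mge.1 (P025H492.sub_vl_mem hf) with h3 | h3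
  · exact Or.inl (by rw [h3]; rfl)
  · refine Or.inr ?_
    rw [hB.ord_over C p h]
    exact mul_pos (hB.fib_pos C p h) (by omega)

theorem ord_unit (hC : S.Cs) (C : Crv S.W) (y : Plk ℂ C.Fn) {w : K} (w0 : w ≠ 0)
    (h : ∀ C', (S.pt C y).On C' → C'.ord w = 0) : P019P.ord y (C.rs w) = 0 := by
  have h1 := h C (on_pt hC C y)
  rw [← P019P.dv_apply, ← hC.rst_div C w w0 h1]
  refine (hC.rst_nonneg C _ ((div_apply S.all.toLoc2 w C).trans h1) y fun C' hC' => ?_).2.2
    fun C' hC' => (div_apply S.all.toLoc2 w C').trans (h C' hC')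
  rw [div_apply S.all.toLoc2, h C' hC']

theorem vl_van (hC : S.Cs) (C : Crv S.W) (y : Plk ℂ C.Fn) {w : K} (hw : w ∈ (S.pt C y).ring)
    {c : ℂ} (h : (S.pt C y).Van (w - algebraMap ℂ K c)) : vl y (C.rs w) = c := by
  refine P025H492.vl_eq ?_
  rw [← C.rs_const, ← C.rs_sub (on_pt hC C y w hw) (C.const_mem c)]
  exact (hC.pt_van C y _ h.1).1 h

/-- The value of a function at a point does not depend on the curve. -/
theorem vl_eq (hC : S.Cs) {C C' : Crv S.W} {y : Plk ℂ C.Fn} {y' : Plk ℂ C'.Fn}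
    (e : S.pt C y = S.pt C' y') {w : K} (h : ∀ D, (S.pt C y).On D → D.ord w = 0) :
    vl y (C.rs w) = vl y' (C'.rs w) := by
  have h1 : w ∈ (S.pt C y).ring :=
    (S.all.normal _ w).1 (Or.inr fun D hD => by rw [h D hD]; exact le_rfl)
  obtain ⟨c, hc⟩ := S.all.val _ w h1
  rw [vl_van hC C y h1 hc, vl_van hC C' y' (e ▸ h1) (e ▸ hc)]

theorem kill {Q : Type} [AddCommGroup Q] {c : Pt S.W → Q} (hc : S.Kill c) (C : Crv S.W) :
    P297Y.En.Kill fun y => c (S.pt C y) := fun Z hZ => by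
  have h := hc C Z hZ
  rwa [Surf.cyc, Finsupp.liftAddHom_apply] at h

variable {P P' : Pen S} {X : Derivation ℂ K K}

theorem fib_eq (h : S.Api) (hs : P.Sec X P') {G : Crv S.W} {q : Plk ℂ P'.k} (hG : P'.Over G q) :
    P'.fib q = P'.fib q G • G.cl := by
  ext C
  by_cases e : C = G
  · subst e
    simp
  · rw [(h.bas P').fib_zero C q fun h1 => e (hs.uniq C G q h1 hG), Finsupp.smul_apply,
      Finsupp.single_eq_of_ne e, smul_zero]

theorem deg_le (h : S.Api) (hs : P.Sec X P') {G : Crv S.W} {q : Plk ℂ P'.k} (hG : P'.Over G q) :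
    inter P.F G.cl ≤ inter P.F P'.F := by
  have h1 := (h.bas P').fib_pos G q hG
  have h2 := (h.num P).F_nef G
  have h3 : inter P.F P'.F = P'.fib q G * inter P.F G.cl := by
    rw [inter_comm, ← (h.num P').num_fib q, inter_comm, fib_eq h hs hG, ← S.B_apply, map_zsmul,
      S.B_apply, smul_eq_mul, ← fib_eq h hs hG]
  rw [h3]
  nlinarith

theorem hor_of (h : S.Api) (hs : P.Sec X P') {C : Crv S.W} {p : Plk ℂ P.k} (hC : P.Over C p) :
    P'.Hor C :=
  ((h.bas P').dich C).resolve_right fun ⟨q, hq⟩ => (h.bas P).not_hor C p hC (hs.hor C q hq)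

variable {ψ : P'.k} {w : K} {a : Plk ℂ P.k →₀ ℤ} {n : ℕ} {lam : P.k} {g : P'.k} {T : Div S.W}

/-- The divisor of `w` near a point. -/
theorem ord_w (h : S.Api) (hs : P.Sec X P') (hk : P.Kum P' ψ w a n lam g T) {x : Pt S.W}
    (hx : a (P.π x) = 0) {G : Crv S.W} (hG : P'.Over G (P'.π x)) (D : Crv S.W) (hD : x.On D) :
    D.ord w = (T G • G.cl) D := by
  have h1 : P.pull a D = 0 := by
    rcases (h.bas P).dich D with h2 | ⟨p, h2⟩
    · exact (h.bas P).pull_hor D h2 a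
    · rw [(h.bas P).pull_over D p h2, ← (h.bas P).pi_eq D p x h2 hD, hx, mul_zero]
  rw [← div_apply S.all.toLoc2, hk.div_w, Finsupp.sub_apply, h1, sub_zero]
  by_cases e : D = G
  · subst e
    simp
  · rw [Finsupp.smul_apply, Finsupp.single_eq_of_ne e, smul_zero]
    rcases (h.bas P').dich D with h2 | ⟨q, h2⟩
    · exact hk.T_hor D h2
    · rw [← (h.bas P').pi_eq D q x h2 hD] at h2
      exact absurd (hs.uniq D G _ h2 hG) e

theorem root (hk : P.Kum P' ψ w a n lam g T) (C : Crv S.W) (h1 : C.ord lam = 0)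
    (h2 : C.ord w = 0) : C.ord g = 0 ∧ C.rs lam ≠ 0 ∧ C.rs g = C.rs lam * C.rs w ^ n := by
  have l0 : (lam : K) ≠ 0 := by exact_mod_cast hk.lam_ne
  have h3 := mem_of_ord C hk.w_ne h2
  refine ⟨?_, rs_ne C l0 h1, ?_⟩
  · unfold Crv.ord at *
    rw [hk.h_eq, Pl.ord_mul _ l0 (pow_ne_zero n hk.w_ne), Pl.ord_pow, h1, h2, mul_zero, add_zero]
  · rw [hk.h_eq, C.rs_mul (mem_of_ord C l0 h1) (pow_mem h3 n), rs_pow C h3]

/-- On a good fibre of the first pencil. -/
theorem stepA (lema : LEMA) (h : S.Api) (hK : inter S.kap P.F = 0) (hs : P.Sec X P')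
    (hk : P.Kum P' ψ w a n lam g T) {p : Plk ℂ P.k} (hp : a p = 0) {C : Crv S.W}
    (hC : P.Good p C) (y y' : Plk ℂ C.Fn) (e : P'.π (S.pt C y) = P'.π (S.pt C y'))
    (h0 : P019P.ord y (C.rs w) = 0) (hv : vl y (C.rs w) = vl y' (C.rs w)) :
    ((inter P.F P'.F).toNat.factorial : ℤ) • (Finsupp.single y 1 - Finsupp.single y' 1) ∈
      prn ℂ C.Fn := by
  have hH : Fact (P'.Hor C) := ⟨hor_of h hs hC.ov⟩
  have hπ : ∀ z, P.π (S.pt C z) = p := fun z => (h.bas P).pi_eq C p _ hC.ov (on_pt h.cs C z)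
  have h1 : C.ord w = 0 := by
    rw [← div_apply S.all.toLoc2, hk.div_w, Finsupp.sub_apply, hk.T_hor C hH.out,
      (h.bas P).pull_over C p hC.ov, hp, mul_zero, sub_zero]
  have h2 : P019P.ord p lam = 0 := by
    rw [← P019P.dv_apply, hk.dv_lam, Finsupp.smul_apply, hp, smul_zero]
  obtain ⟨-, h3, h4⟩ := root hk C (by rw [(h.bas P).ord_over C p hC.ov, h2, mul_zero]) h1
  rw [rs_over (h.bas P) hC.ov h2.ge] at h3 h4
  refine lema P'.k C.Fn _ n ψ (g / algebraMap ℂ P'.k (vl p lam)) (C.rs w) ?_ ?_ hk.n_ne hk.nc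
    (rs_ne C hk.w_ne h1) ?_ (fun z => ?_) y y'
    (by rw [(h.num P').down_eq, (h.num P').down_eq, e]) h0 hv
  · have h5 := h.gle C
    rw [Surf.ag, ← hC.fib_eq, (h.num P).num_fib, inter_comm, (h.num P).num_fib, (h.num P).F_sq,
      inter_comm, (h.num P).num_fib, inter_comm, hK] at h5
    omega
  · have h5 := (h.num P').deg C
    rw [← hC.fib_eq, inter_comm, (h.num P).num_fib] at h5
    rw [h5, Int.toNat_natCast]
  · rw [map_div₀, ← IsScalarTower.algebraMap_apply, P'.algebraMap_fn, h4,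
      mul_div_cancel_left₀ _ h3]
  · obtain ⟨G, hG, hq⟩ := (h.bas P').ex_over (S.pt C z)
    have hne : C ≠ G := fun e => (h.bas P').not_hor G _ hq (e ▸ hH.out)
    have h5 : G.cl C = 0 := Finsupp.single_eq_of_ne hne
    have h6 := h.cs.rst_nonneg C G.cl h5 z fun D _ => Finsupp.single_nonneg.2 zero_le_one D
    have h7 : S.rst C G.cl z ≠ 0 := fun e => by simpa using h6.2.1 e G hG
    have h8 : P019P.ord z (C.rs w) = T G * S.rst C G.cl z := by
      rw [← P019P.dv_apply, ← h.cs.rst_div C w hk.w_ne h1,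
        rst_congr h.cs C ((div_apply S.all.toLoc2 w C).trans h1) z fun D hD =>
          (div_apply S.all.toLoc2 w D).trans (ord_w h hs hk (by rw [hπ, hp]) hq D hD),
        h.cs.rst_zsmul C _ _ h5, Finsupp.smul_apply, smul_eq_mul]
    have h9 : (ram P'.k z : ℤ) = P'.fib (P'.π (S.pt C z)) G * S.rst C G.cl z := by
      have e1 := DFunLike.congr_fun ((h.num P').rst_pull C (Finsupp.single (P'.π (S.pt C z)) 1)) z
      rw [P025H492.pull_apply, (h.num P').down_eq, Finsupp.single_eq_same, mul_one,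
        ← Penn.fib_eq, fib_eq h hs hq, h.cs.rst_zsmul C _ _ h5, Finsupp.smul_apply,
        smul_eq_mul] at e1
      exact e1.symm
    have h10 := hk.T_over G _ hq
    rw [P025H492.wdv_apply hk.nc] at h10
    rw [P025H492.wd_up hk.nc, (h.num P').down_eq, h8, h9, mul_right_comm, ← h10]
    have h11 := h6.1
    have h12 : 1 ≤ S.rst C G.cl z := by omega
    linarith

end Fin1

open Fin1 in
theorem fin1b (lema : LEMA) (lemb : LEMB) : FIN1B := by
  intro K _ _ S h P X M m hz hK P' hs ψ w a n lam g T hk Q _ c hc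
  have hT : {q | ∃ G, P'.Over G q ∧ T G ≠ 0}.Finite := by
    refine (Set.Finite.biUnion T.support.finite_toSet fun G _ =>
      Set.Subsingleton.finite (s := {q | P'.Over G q}) fun q hq q' hq' =>
        (h.bas P').uniq G q q' hq hq').subset ?_
    rintro q ⟨G, hG, h1⟩
    exact Set.mem_biUnion (Finsupp.mem_support_iff.2 h1) hG
  refine ⟨a.support, fun p hp C hC => ⟨_, mul_ne_zero (mul_ne_zero
    (inter P.F P'.F).toNat.factorial_ne_zero (inter P.F P'.F).toNat.factorial_ne_zero)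
    (inter P.F P'.F).toNat.factorial_ne_zero, hT.toFinset, fun x x' hx hx' e hq => ?_⟩⟩
  rw [Finsupp.notMem_support_iff] at hp
  obtain ⟨G, hG, hGq⟩ := (h.bas P').ex_over x
  have hG' : x'.On G := by
    obtain ⟨G', h1, h2⟩ := (h.bas P').ex_over x'
    rwa [← hs.uniq G' G _ (e ▸ h2) hGq]
  have hTG : T G = 0 := by_contra fun h1 => hq (hT.mem_toFinset.2 ⟨G, hGq, h1⟩)
  have hH : Fact (P.Hor G) := ⟨hs.hor G _ hGq⟩
  have hπ : ∀ z, P'.π (S.pt G z) = P'.π x := fun z =>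
    (h.bas P').pi_eq G _ _ hGq (on_pt h.cs G z)
  have hu : ∀ z, down P.k z = p → ∀ D, (S.pt G z).On D → D.ord w = 0 := fun z h1 D hD => by
    rw [(h.num P).down_eq] at h1
    rw [ord_w h hs hk (by rw [h1, hp]) (by rw [hπ]; exact hGq) D hD, hTG, zero_smul,
      Finsupp.zero_apply]
  have hon : ∀ z, down P.k z = p → ∃ y, S.pt C y = S.pt G z := fun z h1 => by
    rw [(h.num P).down_eq] at h1
    obtain ⟨D, h2, h3⟩ := (h.bas P).ex_over (S.pt G z)
    rw [h1] at h3
    have h4 := (h.bas P).fib_pos D p h3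
    rw [hC.fib_eq] at h4
    obtain rfl : D = C := by_contra fun e => by
      rw [Finsupp.single_eq_of_ne e] at h4
      exact lt_irrefl _ h4
    exact (h.cs.on_iff D _).1 h2
  have h1 : G.ord w = 0 := by
    rw [← div_apply S.all.toLoc2, hk.div_w, Finsupp.sub_apply, hTG,
      (h.bas P).pull_hor G hH.out, sub_zero]
  obtain ⟨h2, h3, h4⟩ := root hk G ((h.bas P).ord_hor G hH.out lam) h1
  rw [(h.bas P').ord_over G _ hGq, mul_eq_zero, or_iff_right ((h.bas P').fib_pos G _ hGq).ne'] at h2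
  rw [rs_over (h.bas P') hGq h2.ge] at h4
  obtain ⟨z, rfl⟩ := (h.cs.on_iff G x).1 hG
  obtain ⟨z', rfl⟩ := (h.cs.on_iff G x').1 hG'
  refine lemb P.k G.Fn Q (fun z => c (S.pt G z)) _ n _
    (algebraMap ℂ P.k (vl (P'.π (S.pt G z)) g) / lam) 1 (G.rs w) p (kill hc G) hz.gen ?_ hk.n_ne
    (rs_ne G hk.w_ne h1) ?_ (fun r => ?_) (fun t ht => ?_) (fun t t' ht ht' hv => ?_) z z'
    (by rw [(h.num P).down_eq, hx]) (by rw [(h.num P).down_eq, hx'])
  · have h5 := deg_le h hs hGq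
    rw [(h.num P).deg G] at h5
    omega
  · rw [map_div₀, ← IsScalarTower.algebraMap_apply, P.algebraMap_fn, h4,
      mul_div_cancel_left₀ _ h3]
  · by_cases h5 : vl (P'.π (S.pt G z)) g = 0
    · rw [h5, map_zero, zero_div, P019P.ord_zero]
      exact dvd_zero _
    · rw [div_eq_mul_inv, P019P.ord_mul _ (by simpa using h5) (inv_ne_zero hk.lam_ne),
        P019P.ord_const, P019P.ord_inv, ← P019P.dv_apply, hk.dv_lam, Finsupp.smul_apply, zero_add,
        smul_eq_mul]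
      exact (dvd_mul_right _ _).neg_right
  · rw [map_one, mul_one]
    exact ord_unit h.cs G t hk.w_ne (hu t ht)
  · rw [map_one, mul_one] at hv
    obtain ⟨y, hy⟩ := hon t ht
    obtain ⟨y', hy'⟩ := hon t' ht'
    have h5 := hc C _ (stepA lema h hK hs hk hp hC y y' (by rw [hy, hy', hπ t, hπ t'])
      (ord_unit h.cs C y hk.w_ne (hy ▸ hu t ht)) (by
        rw [← vl_eq h.cs hy.symm (hu t ht), ← vl_eq h.cs hy'.symm (hu t' ht'), hv]))
    rwa [map_zsmul, map_sub, S.cyc_single, S.cyc_single, one_smul, one_smul, hy, hy',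
      natCast_zsmul] at h5

end En

end Vale.Agent.P297Z.Sf
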