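import Vale.Agent.P297Y.En.Sk2
import Vale.Agent.P297Y.Alg.Penn

/-! P297, positive irregularity, the end of the proof: the class of the second pencil. -/

set_option linter.all false

namespace Vale.Agent.P297Z.Sf

open Vale.Agent.P019P (CFF Plk dg)

variable {K : Type} [Field K] [Algebra ℂ K] {S : Surf K}

namespace En

namespace Gn

theorem sub_l (A B C : Div S.W) : inter (A - B) C = inter A C - inter B C := by
  simp only [← S.B_apply, map_sub, AddMonoidHom.sub_apply]

theorem add_l (A B C : Div S.W) : inter (A + B) C = inter A C + inter B C := by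
  simp only [← S.B_apply, map_add, AddMonoidHom.add_apply]

theorem smul_l (n : ℤ) (A C : Div S.W) : inter (n • A) C = n * inter A C := by
  simp only [← S.B_apply, map_zsmul, AddMonoidHom.zsmul_apply, smul_eq_mul]

theorem sub_r (A B C : Div S.W) : inter C (A - B) = inter C A - inter C B := by
  simp only [← S.B_apply, map_sub]

theorem smul_r (n : ℤ) (A C : Div S.W) : inter C (n • A) = n * inter C A := by
  simp only [← S.B_apply, map_zsmul, smul_eq_mul]

theorem two_choose (r : ℕ) : 2 * (r.choose 2 : ℤ) = r * (r - 1) := by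
  induction r with
  | zero => simp
  | succ n ih =>
    rw [Nat.choose_succ_succ' n 1, Nat.choose_one_right]
    push_cast
    linarith

/-- A nef class that is orthogonal to an effective divisor is orthogonal to its components. -/
theorem comp_zero {Φ Z : Div S.W} (hΦ : S.Nef Φ) (hZ : 0 ≤ Z) (h : inter Φ Z ≤ 0)
    {C : Crv S.W} (hC : Z C ≠ 0) : inter Φ C.cl = 0 := by
  rw [Penn.inter_sum] at h
  have h1 : ∀ C ∈ Z.support, 0 ≤ Z C * inter Φ C.cl := fun C _ => mul_nonneg (hZ C) (hΦ C)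
  have h2 := (Finset.sum_eq_zero_iff_of_nonneg h1).1 (le_antisymm h (Finset.sum_nonneg h1)) C
    (Finsupp.mem_support_iff.2 hC)
  exact (mul_eq_zero.1 h2).resolve_left hC

variable {P : Pen S} {X : Derivation ℂ K K} {M : Div S.W} {m : Plk ℂ P.k → ℤ}

theorem M_nonneg (h : S.Api) (hz : P.Zr X M m) : 0 ≤ M := fun C => by
  rcases (h.bas P).dich C with h1 | ⟨p, h1⟩
  · exact (hz.M_hor C h1).ge
  · have h2 := hz.m_pos p
    rw [hz.M_over C p h1]
    exact sub_nonneg.2 h2

theorem M_prop (h : S.Api) (hz : P.Zr X M m) (Y : Div S.W) :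
    inter S.H P.F * inter M Y = inter S.H M * inter P.F Y :=
  Hd.hodge_prop S.all (h.num P).F_sq ((h.num P).F_vert' M hz.M_hor) hz.MM Y

/-- The components of the Wronskian divisors are infinitely many. -/
theorem inf_of (h : S.Api) (hz : P.Zr X M m) (hw : P.HasWn X M) (h0 : 0 ≤ inter S.kap P.F)
    {T : Set (Crv S.W)} (hT : ∀ N : ℤ, ∃ A, inter S.kap P.F < inter P.F A ∧ N ≤ inter P.F A ∧
      ∀ r Wh E V, P.Wn X M A r Wh E V → ∀ C, Wh C ≠ 0 → C ∈ T) : T.Infinite := by
  classical
  intro hf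
  have hn := h.num P
  obtain ⟨A, a1, a2, a3⟩ := hT ((inter S.kap P.F + 1) * ∑ C ∈ hf.toFinset, inter P.F C.cl + 1)
  obtain ⟨r, Wh, E, V, hW⟩ := hw A a1
  have b1 := hW.rk
  have b2 : (0 : ℤ) < r := by omega
  have b3 := hW.num P.F
  have b4 : inter V P.F = 0 := by
    have e := hW.V_num P.F
    rw [hn.F_sq, mul_zero] at e
    exact (mul_eq_zero.1 e).resolve_left hn.F_pos.ne'
  rw [b4, inter_comm E, hn.F_vert' E hW.E_vert, hz.vd, sub_l, inter_comm M,
    hn.F_vert' M hz.M_hor, inter_comm A, inter_comm Wh, Penn.inter_sum] at b3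
  have b5 : ∑ C ∈ Wh.support, Wh C * inter P.F C.cl ≤
      r * ((inter S.kap P.F + 1) * ∑ C ∈ hf.toFinset, inter P.F C.cl) := by
    rw [← mul_assoc, Finset.mul_sum]
    refine (Finset.sum_le_sum fun C _ => mul_le_mul_of_nonneg_right ((hW.wt C).trans
      (mul_le_mul_of_nonneg_left (by omega) b2.le)) (hn.F_nef C)).trans
      (Finset.sum_le_sum_of_subset_of_nonneg (fun C hC => ?_) fun C _ _ =>
        mul_nonneg (mul_nonneg b2.le (by omega)) (hn.F_nef C))
    exact hf.mem_toFinset.2 (a3 r Wh E V hW C (Finsupp.mem_support_iff.1 hC))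
  have b6 : 0 ≤ (r.choose 2 : ℤ) * (inter S.kap P.F - 0) :=
    mul_nonneg (Int.natCast_nonneg _) (by omega)
  have b7 := mul_le_mul_of_nonneg_left a2 b2.le
  linarith

end Gn

open Gn

theorem g2 : G2 := by
  intro K _ _ S h P X M m hz hw hp
  have hn := h.num P
  have hM : M = 0 := by
    have e := M_prop h hz S.kap
    rw [inter_comm M, hz.KM, mul_zero, inter_comm P.F] at e
    exact Hd.eq_zero_of_deg S.all (M_nonneg h hz) ((mul_eq_zero.1 e.symm).resolve_right hp.ne')
  have hv : inter S.kap (S.vd X) = 0 := by rw [hz.vd, sub_r, hz.KK, hz.KM, sub_zero]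
  refine ⟨hM, hz.nef, hz.KK, hp, hv, inf_of h hz hw hp.le fun N => ⟨(|N| + 2) • S.kap, ?_, ?_, ?_⟩⟩
  · have a1 := abs_nonneg N
    rw [smul_r, inter_comm P.F]
    nlinarith
  · have a1 := abs_nonneg N
    have a2 := le_abs_self N
    rw [smul_r, inter_comm P.F]
    nlinarith
  intro r Wh E V hW C hC
  refine ⟨hW.hor C hC, comp_zero hz.nef hW.nonneg ?_ hC⟩
  have b1 := hW.num S.kap
  have b2 := hW.low
  have b3 := S.all.rr ((|N| + 2) • S.kap)
  have b4 := hW.V_num S.kap
  have b5 := Rul.nef_eff S.all hz.nef hW.E_nonneg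
  rw [smul_l, smul_r, hz.KK, hz.chi] at b3
  rw [smul_l, hz.KK, inter_comm (S.vd X), hv, inter_comm Wh, inter_comm E] at b1
  rw [hM, Hd.inter_zero S.all, show chi ((|N| + 2) • S.kap) = 0 by linarith] at b2
  rw [inter_comm P.F] at b4
  have b6 : 0 ≤ inter S.H P.F * inter V S.kap := b4 ▸ mul_nonneg (by linarith) hp.le
  have b7 := nonneg_of_mul_nonneg_right b6 hn.F_pos
  linarith

theorem g1b : G1B := by
  intro K _ _ S h P X M m hz hw h0 w a w0 ha hle
  have hn := h.num P
  have hf := hn.F_pos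
  have hH := S.all.sq
  have hFH := inter_comm P.F S.H
  have a1 : inter S.H (P.pull a - (S.vd X + div S.W w)) =
      dg a * inter S.H P.F - inter S.H (S.vd X) := by
    rw [sub_r, inter_comm, hn.num, hFH, inter_comm _ (_ + _), inter_lin S.all.toRR _ _ w0,
      inter_comm (S.vd X)]
  have a2 := Rul.nef_eff S.all (Hd.nef_H S.all) (sub_nonneg.2 hle)
  have a3 : dg a * inter S.H P.F ≤ 0 := mul_nonpos_of_nonpos_of_nonneg ha hf.le
  have a4 : inter S.H (S.vd X) ≤ 0 := by linarith
  have a5 : ∀ Y, inter S.H P.F * inter (S.vd X) Y = inter S.H (S.vd X) * inter P.F Y := fun Y => by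
    have e1 := M_prop h hz Y
    have e2 := Hd.hodge_prop S.all hn.F_sq (by rw [inter_comm, h0]) hz.KK Y
    rw [hz.vd, sub_l, sub_r]
    linarith
  obtain ⟨Φ, hΦ⟩ : ∃ Φ, Φ = (2 * inter S.H P.F) • S.H - inter S.H S.H • P.F := ⟨_, rfl⟩
  have p0 : ∀ Y, inter Φ Y = 2 * inter S.H P.F * inter S.H Y - inter S.H S.H * inter P.F Y :=
    fun Y => by rw [hΦ, sub_l, smul_l, smul_l]
  have p1 : inter Φ P.F = 2 * inter S.H P.F * inter S.H P.F := by rw [p0, hn.F_sq]; ring
  have p2 : inter Φ S.H = inter S.H P.F * inter S.H S.H := by rw [p0, hFH]; ring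
  have p3 : inter Φ Φ = 0 := by rw [p0, inter_comm _ Φ, inter_comm _ Φ, p1, p2]; ring
  have p4 : inter Φ (S.vd X) = 2 * inter S.H P.F * inter S.H (S.vd X) := by
    have e := a5 Φ
    rw [inter_comm _ Φ, inter_comm _ Φ, p1] at e
    refine mul_left_cancel₀ hf.ne' (e.trans (by ring))
  have p5 : S.Nef Φ := fun C => by
    have c0 := S.all.crv C
    by_cases hC : P.Hor C
    · have c1 := hz.log C hC
      have c2 := a5 C.cl
      have c3 : inter S.H P.F * inter (S.vd X) C.cl ≤ 0 :=
        c2 ▸ mul_nonpos_of_nonpos_of_nonneg a4 (hn.F_nef C)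
      have c4 : inter (S.vd X) C.cl ≤ 0 := nonpos_of_mul_nonpos_right c3 hf
      rw [add_l] at c1
      have c5 := Hd.hodge S.all (inter S.H C.cl • Φ - inter Φ S.H • C.cl) (by
        rw [sub_r, smul_r, smul_r, inter_comm S.H Φ]; ring)
      simp only [sub_l, sub_r, smul_l, smul_r, p3, inter_comm C.cl Φ] at c5
      have c6 : 0 < inter Φ S.H := p2 ▸ mul_pos hf hH
      have c7 : 0 ≤ inter Φ S.H * (inter Φ S.H * inter C.cl C.cl) :=
        mul_nonneg c6.le (mul_nonneg c6.le (by linarith))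
      have c8 : 0 ≤ inter S.H C.cl * inter Φ S.H * inter Φ C.cl := by linarith
      exact nonneg_of_mul_nonneg_right c8 (mul_pos c0 c6)
    · rw [p0, hn.F_vert C hC, mul_zero, sub_zero]
      exact (mul_pos (by linarith) c0).le
  have key : ∀ n : ℤ, ∀ r Wh E V, P.Wn X M (n • S.H) r Wh E V →
      inter Φ Wh ≤ r * r * inter S.H P.F * inter S.H (S.vd X) := by
    intro n r Wh E V hW
    have b0 := hW.rk
    have b1 := hW.num Φ
    have b2 := hW.low
    have b3 := S.all.rr (n • S.H)
    have b4 := hW.V_num Φ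
    have b5 := Rul.nef_eff S.all p5 hW.E_nonneg
    have b6 := two_choose r
    have b7 : inter S.H (S.vd X) = inter S.H S.kap - inter S.H M := by rw [hz.vd, sub_r]
    rw [smul_r, h0, hFH] at b0
    have b8 : (r : ℤ) = n * inter S.H P.F := by linarith
    rw [smul_l, smul_r, smul_r, hz.chi, inter_comm S.kap] at b3
    rw [smul_l, inter_comm Wh, inter_comm E, inter_comm S.H Φ, inter_comm (S.vd X), p2, p4] at b1
    rw [inter_comm P.F, p1] at b4
    have b9 : inter V Φ = 2 * inter S.H P.F * inter S.H V :=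
      mul_left_cancel₀ hf.ne' (b4.trans (by ring))
    have c1 := mul_le_mul_of_nonneg_left b2 hf.le
    have c2 : inter S.H P.F * (2 * inter S.H P.F * chi (n • S.H)) = inter S.H P.F * inter S.H P.F *
        (n * (n * inter S.H S.H) - n * inter S.H S.kap) := by
      linear_combination inter S.H P.F * inter S.H P.F * b3
    have c3 : (r.choose 2 : ℤ) * (2 * inter S.H P.F * inter S.H (S.vd X)) =
        r * (r - 1) * (inter S.H P.F * inter S.H (S.vd X)) := by
      linear_combination inter S.H P.F * inter S.H (S.vd X) * b6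
    rw [c3, b9, b7, b8] at b1
    rw [mul_add, c2, b8] at c1
    rw [b7, b8]
    linarith
  have a6 : inter S.H (S.vd X) = 0 := by
    obtain ⟨r, Wh, E, V, hW⟩ := hw ((1 : ℤ) • S.H) (by rw [smul_r, h0, hFH]; linarith)
    have b0 := hW.rk
    rw [smul_r, h0, hFH] at b0
    have b1 : (0 : ℤ) < r := by linarith
    exact le_antisymm a4 (nonneg_of_mul_nonneg_right
      ((Rul.nef_eff S.all p5 hW.nonneg).trans (key 1 r Wh E V hW)) (mul_pos (mul_pos b1 b1) hf))
  have a7 : dg a * inter S.H P.F = 0 := by linarith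
  refine ⟨(mul_eq_zero.1 a7).resolve_right hf.ne', (sub_eq_zero.1 (Hd.eq_zero_of_deg S.all
    (sub_nonneg.2 hle) (by linarith))).symm, Φ, p5, p3, p1 ▸ mul_pos (by linarith) hf,
    by rw [p4, a6, mul_zero], inf_of h hz hw h0.ge fun N => ⟨(|N| + 1) • S.H, ?_, ?_, ?_⟩⟩
  · have a1 := abs_nonneg N
    rw [smul_r, h0, hFH]
    exact mul_pos (by linarith) hf
  · have a1 := abs_nonneg N
    have a2 := le_abs_self N
    rw [smul_r, hFH]
    nlinarith
  intro r Wh E V hW C hC
  refine ⟨hW.hor C hC, comp_zero p5 hW.nonneg ?_ hC⟩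
  simpa [a6] using key _ r Wh E V hW

end En

end Vale.Agent.P297Z.Sf
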