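import Vale.Agent.P297Y.En.Sk1

/-! P297, positive irregularity: two lemmas on curves with a root of a function. -/

open Finsupp IntermediateField

namespace Vale.Agent.P297Y.En

open Vale.Agent.P019P P025H492

namespace Lem

section two

variable {E L : Type} [Field E] [Field L] [Algebra ℂ E] [Algebra ℂ L] [Algebra E L]
  [IsScalarTower ℂ E L] [CFF ℂ E] [CFF ℂ L] [FiniteDimensional E L]

theorem vl_up {y : Plk ℂ L} {z : E} (h : 0 ≤ ord (down E y) z) :
    vl y (algebraMap E L z) = vl (down E y) z := by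
  refine vl_eq ?_
  rw [IsScalarTower.algebraMap_apply ℂ E L, ← map_sub]
  exact mem_Mge_up.2 (sub_vl_mem h)

theorem ord_down_zero {y : Plk ℂ L} {z : E} (h : ord y (algebraMap E L z) = 0) :
    ord (down E y) z = 0 := by
  rw [ord_algebraMap] at h
  exact (mul_eq_zero.1 h).resolve_left (ram_ne_zero y)

theorem ord_root {m : ℕ} (hm : m ≠ 0) {μ : E} {v : L} (hv : v ^ m = algebraMap E L μ)
    {p p' : Plk ℂ L} (hd : down E p = down E p') (h0 : ord p v = 0) : ord p' v = 0 := by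
  have h1 : ord (down E p) μ = 0 := by
    refine ord_down_zero ?_
    rw [← hv, ord_pow, h0, mul_zero]
  have h2 := ord_algebraMap p' μ
  rw [← hd, h1, mul_zero, ← hv, ord_pow] at h2
  exact (mul_eq_zero.1 h2).resolve_left (by exact_mod_cast hm)

/-- The root separates the places of a fibre where it is a unit. -/
theorem sep {m : ℕ} (hm : m ≠ 0) {μ : E} {v : L} (hv0 : v ≠ 0) (hv : v ^ m = algebraMap E L μ)
    (htop : E⟮v⟯ = ⊤) {p p' : Plk ℂ L} (hd : down E p = down E p') (h0 : ord p v = 0)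
    (hvl : vl p v = vl p' v) : p = p' := by
  have : IsGalois E L := isGalois_radicals (k := ℂ) htop fun y hy => by
    rw [Set.mem_singleton_iff] at hy
    exact ⟨m, μ, by exact_mod_cast hm, hy ▸ hv⟩
  obtain ⟨σ, hσ⟩ := exists_conj_eq hd
  have hσ0 : σ v ≠ 0 := by simpa using hv0
  have h1 : (σ v * v⁻¹) ^ m = 1 := by
    rw [mul_pow, ← map_pow, inv_pow, hv, AlgEquiv.commutes, ← hv,
      mul_inv_cancel₀ (pow_ne_zero m hv0)]
  obtain ⟨ζ, hζ⟩ := (dv_eq_zero_iff (k := ℂ) (mul_ne_zero hσ0 (inv_ne_zero hv0))).1 (by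
    ext P
    have h2 := ord_pow P (σ v * v⁻¹) m
    rw [h1, ord_one] at h2
    rw [dv_apply]
    exact (mul_eq_zero.1 h2.symm).resolve_left (by exact_mod_cast hm))
  have h2 : σ v = ζ • v := by
    rw [Algebra.smul_def, ← hζ, mul_assoc, inv_mul_cancel₀ hv0, mul_one]
  have h0' := ord_root hm hv hd h0
  set c := vl p v with hc
  have h3 : v - algebraMap ℂ L c ∈ Mge p 1 := sub_vl_mem h0.ge
  have hc0 : c ≠ 0 := by
    intro h
    rw [h, map_zero, sub_zero, mem_Mge] at h3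
    rcases h3 with h3 | h3
    · exact hv0 h3
    · omega
  have h4 : v - algebraMap ℂ L c ∈ Mge p' 1 := by
    rw [hvl]
    exact sub_vl_mem h0'.ge
  have h5 : σ v - algebraMap ℂ L c ∈ Mge p' 1 := by
    have e : σ v - algebraMap ℂ L c = σ (v - algebraMap ℂ L c) := by
      rw [map_sub, IsScalarTower.algebraMap_apply ℂ E L, AlgEquiv.commutes]
    rw [e, ← hσ, mem_Mge, ord_conj, map_eq_zero_iff σ σ.injective]
    exact h3
  have h6 : algebraMap ℂ L ((ζ - 1) * c) ∈ Mge p' 1 := by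
    have h7 := Submodule.sub_mem _ h5 (Submodule.smul_mem _ ζ h4)
    have e : σ v - algebraMap ℂ L c - ζ • (v - algebraMap ℂ L c) =
        algebraMap ℂ L ((ζ - 1) * c) := by
      rw [h2, Algebra.smul_def, Algebra.smul_def, map_mul, map_sub, map_one]
      ring
    rwa [e] at h7
  have h7 : ζ = 1 := sub_eq_zero.1 ((mul_eq_zero.1 (const_notMem h6)).resolve_right hc0)
  rw [h7, one_smul] at h2
  have h8 : E⟮v⟯ ≤ fixedField (Subgroup.zpowers σ) := by
    rw [adjoin_simple_le_iff, mem_fixedField_iff]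
    rintro τ ⟨n, rfl⟩
    have h3 : σ ∈ MulAction.stabilizer (L ≃ₐ[E] L) v := h2
    exact (zpow_mem h3 n : σ ^ n ∈ MulAction.stabilizer (L ≃ₐ[E] L) v)
  rw [htop, top_le_iff] at h8
  have h9 : σ = 1 := AlgEquiv.ext fun x => by
    have h3 : x ∈ fixedField (Subgroup.zpowers σ) := h8 ▸ mem_top
    rw [mem_fixedField_iff] at h3
    exact h3 σ (Subgroup.mem_zpowers σ)
  rw [← hσ, h9, conj_one]

/-- A form which is regular upstairs is regular. -/
theorem gen_pos {ψ v : E} (hψ : ∀ c : ℂ, ψ ≠ algebraMap ℂ E c) (hv : v ≠ 0)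
    (h : ∀ y : Plk ℂ L, ord y (algebraMap E L v) ≤ wd (algebraMap E L ψ) y) : 1 ≤ gen ℂ E := by
  have h1 : v⁻¹ ∈ LL ℂ (wdv ℂ ψ) := by
    refine mem_LL.2 (Or.inr fun p => ?_)
    obtain ⟨z, rfl⟩ := exists_over (L := L) p
    have h2 := h z
    rw [wd_up hψ, ord_algebraMap] at h2
    rw [wdv_apply hψ, ord_inv, neg_le_neg_iff]
    have h3 : (0 : ℤ) < ram E z := by exact_mod_cast ram_pos z
    have h4 : (ram E z : ℤ) * ord (down E z) v < ram E z * (wd ψ (down E z) + 1) := by omega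
    have h5 := lt_of_mul_lt_mul_left h4 h3.le
    omega
  rw [← Crr.l_wdv hψ]
  exact Module.finrank_pos_iff_exists_ne_zero.2
    ⟨⟨v⁻¹, h1⟩, fun e => inv_ne_zero hv (congrArg Subtype.val e)⟩

end two

theorem gen_top {E L : Type} [Field E] [Field L] [Algebra E L] (v : L) :
    E⟮AdjoinSimple.gen E v⟯ = (⊤ : IntermediateField E E⟮v⟯) := by
  refine IntermediateField.map_injective E⟮v⟯.val ?_
  rw [adjoin_map, Set.image_singleton, ← AlgHom.fieldRange_eq_map, fieldRange_val]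
  rfl

theorem rk_le {E L : Type} [Field E] [Field L] [Algebra E L] [FiniteDimensional E L]
    (K : IntermediateField E L) :
    Module.finrank E K ≤ Module.finrank E L ∧ Module.finrank K L ≤ Module.finrank E L := by
  rw [← Module.finrank_mul_finrank E K L]
  exact ⟨Nat.le_mul_of_pos_right _ Module.finrank_pos, Nat.le_mul_of_pos_left _ Module.finrank_pos⟩

end Lem

open Lem

theorem lema (hT : TORS) : LEMA := by
  intro E L _ _ _ _ _ _ _ _ _ n m ψ μ v hg hn hm hψ hv0 hv hreg y y' hd h0 hvl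
  have : IsScalarTower ℂ E⟮v⟯ L := IsScalarTower.of_algebraMap_eq fun _ => rfl
  have : CFF ℂ E⟮v⟯ := cff_of_finite (K := E)
  set v' : E⟮v⟯ := AdjoinSimple.gen E v with hv'
  have e : algebraMap E⟮v⟯ L v' = v := rfl
  have hv0' : v' ≠ 0 := fun h => hv0 (by rw [← e, h, map_zero])
  have hvm : v' ^ m = algebraMap E E⟮v⟯ μ := Subtype.ext hv
  have hd' : down E (down E⟮v⟯ y) = down E (down E⟮v⟯ y') := by rw [down_down, down_down, hd]
  have h1 : ord (down E⟮v⟯ y) v' = 0 := ord_down_zero h0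
  have h2 := ord_root hm hvm hd' h1
  refine hT E⟮v⟯ L n hg ?_ ((rk_le _).2.trans hn) y y' ?_
  · exact gen_pos (L := L) (nc_up (L := E⟮v⟯) hψ) hv0' hreg
  · refine sep hm hv0' hvm (gen_top v) hd' h1 ?_
    rw [← vl_up h1.ge, ← vl_up h2.ge]
    exact hvl

theorem lemb (hT : TORS) (hF : FIBC) : LEMB := by
  intro E L _ _ _ _ _ _ _ _ _ Q _ c n m N μ s w b hK hg hn hm _ hw hdiv hord hval y y' hy hy'
  have : IsScalarTower ℂ E⟮w⟯ L := IsScalarTower.of_algebraMap_eq fun _ => rfl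
  have : CFF ℂ E⟮w⟯ := cff_of_finite (K := E)
  set w' : E⟮w⟯ := AdjoinSimple.gen E w with hw'
  have hwm : w' ^ m = algebraMap E E⟮w⟯ μ := Subtype.ext hw
  have hU : IsUnr ℂ E E⟮w⟯ := isUnr_kummer (by exact_mod_cast hm) hwm (gen_top w) hdiv
  have hg' : gen ℂ E⟮w⟯ ≤ 1 := by
    have h1 := hU.genus
    rw [hg] at h1
    push_cast at h1
    omega
  have e : algebraMap E⟮w⟯ L (w' * algebraMap E E⟮w⟯ s) = w * algebraMap E L s := rfl
  have key : ∀ x : Plk ℂ L, down E x = b → ∀ z, down E⟮w⟯ z = down E⟮w⟯ x →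
      N • (c z - c x) = 0 := by
    intro x hx z hz
    have h1 : ord (down E⟮w⟯ x) (w' * algebraMap E E⟮w⟯ s) = 0 := ord_down_zero (hord x hx)
    refine hval z x (by rw [← down_down (L := E⟮w⟯), hz, down_down, hx]) hx ?_
    rw [← e, vl_up h1.ge, vl_up (hz ▸ h1.ge), hz]
  have h1 := hT E E⟮w⟯ n hg' hg.ge ((rk_le _).1.trans hn) (down E⟮w⟯ y) (down E⟮w⟯ y')
    (by rw [down_down, down_down, hy, hy'])
  have h2 := hF E⟮w⟯ L Q c N n.factorial y y' hK h1 (key y hy) (key y' hy')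
  obtain ⟨t, ht⟩ : Module.finrank E⟮w⟯ L ∣ n.factorial :=
    Nat.dvd_factorial Module.finrank_pos ((rk_le _).2.trans hn)
  nth_rewrite 2 [ht]
  rw [← mul_assoc, mul_comm _ t, mul_smul, h2, smul_zero]

end Vale.Agent.P297Y.En
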