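import Vale.Agent.P297Y.En.Sk2
import Vale.Agent.P297Y.Alg.Penn

/-! P297, positive irregularity, the end of the proof: the second pencil exists. -/

set_option linter.all false

namespace Vale.Agent.P297Z.Sf.En

open Vale.Agent.P019P (CFF Plk)

variable {K : Type} [Field K] [Algebra ℂ K] {S : Surf K}

namespace Pn

theorem orth {Φ Z : Div S.W} (hΦ : S.Nef Φ) (hZ : 0 ≤ Z) (h : inter Φ Z = 0) {C : Crv S.W}
    (hC : Z C ≠ 0) : inter Φ C.cl = 0 := by
  rw [Penn.inter_sum] at h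
  exact (mul_eq_zero.1 ((Finset.sum_eq_zero_iff_of_nonneg fun C _ =>
    mul_nonneg (hZ C) (hΦ C)).1 h C (Finsupp.mem_support_iff.2 hC))).resolve_left hC

theorem orth' {Φ Z : Div S.W} (h : ∀ C, Z C ≠ 0 → inter Φ C.cl = 0) : inter Φ Z = 0 := by
  rw [Penn.inter_sum]
  exact Finset.sum_eq_zero fun C hC => by rw [h C (Finsupp.mem_support_iff.1 hC), mul_zero]

/-- a function whose divisor is orthogonal to `Φ` has no point of indeterminacy -/
theorem defd {Φ : Div S.W} (h1 : inter Φ Φ = 0) (h2 : inter S.H Φ ≠ 0) {f : K} (hf : f ≠ 0)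
    (h : ∀ C : Crv S.W, C.ord f ≠ 0 → inter Φ C.cl = 0) (x : Pt S.W) :
    f ∈ x.ring ∨ f⁻¹ ∈ x.ring := by
  have hA := S.all
  let Z₀ : Div S.W := (div S.W f).mapRange (max · 0) (max_self 0)
  let Z₁ : Div S.W := (div S.W f).mapRange (fun n => max (-n) 0) (by simp)
  have e0 : ∀ C, Z₀ C = max (C.ord f) 0 := fun C => by
    rw [Finsupp.mapRange_apply, div_apply hA.toLoc2]
  have e1 : ∀ C, Z₁ C = max (-C.ord f) 0 := fun C => by
    rw [Finsupp.mapRange_apply, div_apply hA.toLoc2]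
  have e2 : Z₁ + div S.W f = Z₀ := Finsupp.ext fun C => by
    rw [Finsupp.add_apply, e0, e1, div_apply hA.toLoc2]
    omega
  have h3 : inter Z₁ Z₀ ≤ 0 := by
    rw [← inter_lin hA.toRR Z₁ Z₀ hf, e2]
    exact Hd.hodge_null hA h1 h2 (orth' fun C hC => h C fun o => hC (by rw [e0, o, max_self]))
  by_contra o
  rw [not_or, ← hA.normal, ← hA.normal] at o
  refine h3.not_gt (inter_pos hA.toLoc1 hA.multPos hA.inte (x := x)
    (fun C => by rw [e1]; exact le_max_right _ _) (fun C => by rw [e0]; exact le_max_right _ _)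
    (fun C => by rw [e0, e1]; omega) ?_ ?_)
  · by_contra o'
    push Not at o'
    refine o.1 (Or.inr fun C hC => ?_)
    have := o' C hC
    rw [e1] at this
    rw [Finsupp.zero_apply]
    omega
  · by_contra o'
    push Not at o'
    refine o.2 (Or.inr fun C hC => ?_)
    have := o' C hC
    have e3 : C.ord f⁻¹ = -C.ord f := by
      simpa using Pl.ord_zpow C.pl f (-1)
    rw [e0] at this
    rw [Finsupp.zero_apply, e3]
    omega

/-- logarithmic derivatives -/
theorem dlog (h : S.Dr) {X : Derivation ℂ K K} (hX : X ≠ 0) {C : Crv S.W} {a b : K} (ha : a ≠ 0)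
    (hb : b ≠ 0) (e : C.ord a = C.ord b) : X a / a - X b / b ∈ secAt C (S.vd X) := by
  have h0 : C.ord (a / b) = 0 := (Pl.ord_div C.pl ha hb).trans (sub_eq_zero.2 e)
  have h1 : X a / a - X b / b = X (a / b) / (a / b) := by
    rw [Derivation.leibniz_div]
    simp only [smul_eq_mul]
    field_simp
  rw [h1, mem_secAt]
  by_cases o : X (a / b) = 0
  · exact Or.inl (by rw [o, zero_div])
  · have h2 := (h.vd_least X hX C).2 ⟨_, (Pl.ord_nonneg_iff C.pl (div_ne_zero ha hb)).1 h0.ge, o, rfl⟩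
    have h3 : C.ord (X (a / b) / (a / b)) = C.pl.ord (X (a / b)) - C.ord (a / b) :=
      Pl.ord_div C.pl o (div_ne_zero ha hb)
    exact Or.inr (by omega)

theorem dlog_ord {P : Pen S} {X : Derivation ℂ K K} (h : P.Tg X) {C : Crv S.W} (hC : P.Hor C)
    {t : K} (ht : t ≠ 0) (e : C.ord t = 1) :
    X t / t ≠ 0 ∧ C.ord (X t / t) = -S.vd X C - 1 := by
  obtain ⟨s, h0, h1⟩ := S.all.move {C} (S.vd X)
  obtain ⟨h2, h3⟩ := h.transv C hC s h0 (h1 C (Finset.mem_singleton_self C)).symm t (by omega)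
  have h4 := right_ne_zero_of_mul h2
  have h5 : C.ord (s * X t) = C.ord s + C.ord (X t) := Pl.ord_mul C.pl h0 h4
  have h6 : C.ord (X t / t) = C.ord (X t) - C.ord t := Pl.ord_div C.pl h4 ht
  have := h1 C (Finset.mem_singleton_self C)
  exact ⟨div_ne_zero h4 ht, by omega⟩

/-- two independent sections -/
theorem two (h : S.Api) {P : Pen S} {X : Derivation ℂ K K} (hX : P.Tg X) {Φ : Div S.W}
    (hΦ : P.Phi X Φ) : ∃ (Y : Div S.W) (g g' : K), inter Φ Y = 0 ∧ g ∈ H0 Y ∧ g' ∈ H0 Y ∧ g' ≠ 0 ∧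
      ∀ c : ℂ, g - c • g' ≠ 0 := by
  classical
  have hA := S.all
  obtain ⟨G, hG, hn⟩ := hΦ.inf.exists_subset_card_eq ((S.h1 (S.vd X)).toNat + 2)
  choose t t0 t1 using fun C : Crv S.W => Pl.exists_ord_eq_one C.pl
  let φ : (G → ℂ) →ₗ[ℂ] (Crv S.W → K) :=
    Fintype.linearCombination ℂ fun C : G => Pi.single C.1 (X (t C) / t C)
  have e : ∀ v C, φ v C = ∑ C' : G, v C' • (Pi.single C'.1 (X (t C') / t C') : Crv S.W → K) C :=
    fun v C => by rw [Fintype.linearCombination_apply, Finset.sum_apply]; rfl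
  have e' : ∀ v (C : G), φ v C = v C • (X (t C) / t C) := fun v C => by
    rw [e, Finset.sum_eq_single C (fun C' _ o => by
      rw [Pi.single_eq_of_ne' fun o' => o (Subtype.ext o'), smul_zero]) (by simp), Pi.single_eq_same]
  have e'' : ∀ v C, C ∉ G → φ v C = 0 := fun v C hC => by
    rw [e]
    exact Finset.sum_eq_zero fun C' _ => by
      rw [Pi.single_eq_of_ne' fun o' : C'.1 = C => hC (o' ▸ C'.2), smul_zero]
  have h1 := h.pple (S.vd X) (G → ℂ) φ fun v => ⟨G.finite_toSet.subset fun C hC => by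
      by_contra o
      exact hC (e'' v C o), fun x => ⟨∑ C' : G, v C' • (X (S.eqn x C'.1.cl) / S.eqn x C'.1.cl),
    fun C hC => by
      rw [e, ← Finset.sum_sub_distrib]
      refine Submodule.sum_mem _ fun C' _ => ?_
      rw [← smul_sub]
      refine Submodule.smul_mem _ _ ?_
      obtain ⟨s0, s1⟩ := S.eqn_spec x C'.1.cl
      have s2 := s1 C hC
      rw [Finsupp.neg_apply, Finsupp.single_apply] at s2
      by_cases o : C'.1 = C
      · rw [if_pos o] at s2
        subst o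
        rw [Pi.single_eq_same]
        exact dlog h.dr hX.ne s0 (t0 _) (by have : C'.1.ord (t C') = 1 := t1 _; omega)
      · rw [if_neg o] at s2
        have := dlog h.dr hX.ne s0 one_ne_zero (C := C) (by
          have := C.ord_const 1
          rw [map_one] at this
          omega)
        rw [X.map_one_eq_zero, zero_div] at this
        rwa [Pi.single_eq_of_ne' o]⟩⟩
  rw [Module.finrank_pi, Fintype.card_coe, hn] at h1
  have h2 : 1 < Module.finrank ℂ ((S.Glob (S.vd X)).comap φ) := by omega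
  obtain ⟨v', v0⟩ := Module.finrank_pos_iff_exists_ne_zero.1 (one_pos.trans h2)
  obtain ⟨v, hv⟩ := exists_linearIndependent_pair_of_one_lt_finrank h2 v0
  obtain ⟨g, hg⟩ := v.2
  obtain ⟨g', hg'⟩ := v'.2
  let Y : Div S.W := S.vd X + ∑ C ∈ G, C.cl
  have y1 : ∀ C, Y C = S.vd X C + if C ∈ G then 1 else 0 := fun C => by
    simp [Y, Finsupp.finset_sum_apply, Finsupp.single_apply]
  have mem : ∀ (w : G → ℂ) (u : K), (∀ C, u - φ w C ∈ secAt C (S.vd X)) → u ∈ H0 Y := by
    intro w u hu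
    by_cases u0 : u = 0
    · exact Or.inl u0
    refine Or.inr fun C _ => (mem_secAt.1 ?_).resolve_left u0
    rw [← sub_add_cancel u (φ w C)]
    refine add_mem (mem_secAt.2 ((mem_secAt.1 (hu C)).imp_right fun o => ?_)) ?_
    · rw [y1]
      split_ifs <;> omega
    · by_cases o : C ∈ G
      · rw [e' w ⟨C, o⟩]
        refine Submodule.smul_mem _ _ (mem_secAt.2 (Or.inr ?_))
        rw [y1, if_pos o, (dlog_ord hX (hG o).1 (t0 C) (t1 C)).2]
        omega
      · rw [e'' w C o]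
        exact zero_mem _
  have ne : ∀ a b : ℂ, a • g' + b • g = 0 → a = 0 ∧ b = 0 := by
    intro a b o
    refine LinearIndependent.pair_iff.1 hv a b (Subtype.ext (funext fun C => ?_))
    by_contra o'
    have h3 := add_mem (Submodule.smul_mem _ a (hg' C)) (Submodule.smul_mem _ b (hg C))
    have h4 : a • (g' - φ v'.1 C) + b • (g - φ v.1 C) = -φ (a • v' + b • v).1 C := by
      rw [smul_sub, smul_sub, sub_add_sub_comm, o, zero_sub, Submodule.coe_add, map_add,
        Submodule.coe_smul, Submodule.coe_smul, map_smul, map_smul]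
      rfl
    rw [h4, neg_mem_iff, e', Submodule.smul_mem_iff _ o', mem_secAt] at h3
    obtain ⟨h5, h6⟩ := dlog_ord hX (hG C.2).1 (t0 C) (t1 C)
    rcases h3 with h3 | h3
    · exact h5 h3
    · omega
  refine ⟨Y, g, g', ?_, mem _ _ hg, mem _ _ hg', fun o => ?_, fun c o => ?_⟩
  · rw [← S.B_apply, map_add, map_sum, S.B_apply, hΦ.vd, zero_add]
    exact Finset.sum_eq_zero fun C hC => (hG hC).2
  · exact one_ne_zero (ne 1 0 (by rw [o, smul_zero, zero_smul, add_zero])).1
  · exact one_ne_zero (ne (-c) 1 (by rw [one_smul, neg_smul, neg_add_eq_sub, o])).2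

end Pn

theorem pen1 : PEN1 := by
  intro K _ _ S h P X M m hz Φ hΦ
  have hA := S.all
  obtain ⟨Y, g, g', h1, h2, h3, h4, h5⟩ := Pn.two h hz.tg hΦ
  have key : ∀ s ∈ H0 Y, s ≠ 0 → ∀ C : Crv S.W, Y C + C.ord s ≠ 0 → inter Φ C.cl = 0 :=
    fun s hs s0 C hC => Pn.orth hΦ.nef (eff_of_mem hA.toLoc2 hs s0)
      (by rw [inter_comm, inter_lin hA.toRR _ _ s0, inter_comm, h1])
      (by rwa [Finsupp.add_apply, div_apply hA.toLoc2])
  have e : ∀ c : ℂ, g / g' - algebraMap ℂ K c = (g - c • g') / g' := fun c => by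
    rw [Algebra.smul_def, sub_div, mul_div_cancel_right₀ _ h4]
  have h6 : ∀ (c : ℂ) (C : Crv S.W), C.ord (g / g' - algebraMap ℂ K c) ≠ 0 → inter Φ C.cl = 0 := by
    intro c C hC
    have h7 : C.ord ((g - c • g') / g') = C.ord (g - c • g') - C.ord g' := Pl.ord_div C.pl (h5 c) h4
    rw [e, h7] at hC
    by_cases o : Y C + C.ord g' = 0
    · exact key _ (sub_mem h2 (Submodule.smul_mem _ c h3)) (h5 c) C (by omega)
    · exact key _ h3 h4 C o
  have nc : ∀ c : ℂ, g / g' ≠ algebraMap ℂ K c := fun c o =>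
    div_ne_zero (h5 c) h4 (by rw [← e, o, sub_self])
  obtain ⟨P', hP⟩ := h.penof _ nc (Pn.defd hΦ.sq
    (fun o => hΦ.pos.ne' (Hd.hodge_eq hA hA.sq o hΦ.sq _)) (by simpa using nc 0)
    fun C hC => h6 0 C (by rwa [map_zero, sub_zero]))
  refine ⟨P', fun C hC => ?_⟩
  obtain ⟨q, hq⟩ := ((h.bas P').dich C).resolve_left hC
  have h8 := (h.bas P').fib_pos C q hq
  obtain ⟨f, hf⟩ : ∃ f : P'.k, (f : K) = g / g' := ⟨⟨_, hP⟩, rfl⟩
  rw [← hf] at h6 nc
  by_cases o : 0 ≤ P019P.ord q f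
  · have h9 := P025H492.ord_sub_vl_pos (fun c o => nc c (congrArg Subtype.val o)) o
    have h10 := (h.bas P').ord_over C q hq (f - algebraMap ℂ P'.k (P025H492.vl q f))
    exact h6 (P025H492.vl q f) C (h10.trans_ne (mul_pos h8 h9).ne')
  · refine h6 0 C ?_
    rw [map_zero, sub_zero]
    exact ((h.bas P').ord_over C q hq f).trans_ne (mul_ne_zero h8.ne' fun o' => o o'.ge)

end Vale.Agent.P297Z.Sf.En
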