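import Vale.Agent.P297Y.En.Sk2

/-! P297, positive irregularity: the fibres of the second pencil. -/

set_option linter.all false

namespace Vale.Agent.P297Z.Sf.En

open Vale.Agent.P019P (Plk)

theorem pen2 : PEN2 := by
  intro K _ _ S h P X M m hz Φ hΦ P' hP
  have hA := S.all
  have b := h.bas P'
  have u := h.num P'
  have hfib : ∀ q C, P'.Hor C → P'.fib q C = 0 := fun q C hC =>
    b.fib_zero C q fun h1 => b.not_hor C q h1 hC
  have h1 : inter Φ P'.F = 0 := by
    rw [← S.B_apply, eq_sum_single P'.F, map_sum]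
    refine Finset.sum_eq_zero fun C hC => ?_
    rw [map_zsmul, S.B_apply, hP C fun h2 => Finsupp.mem_support_iff.1 hC (hfib _ C h2), smul_zero]
  have h2 : inter S.H Φ ≠ 0 := fun h2 => hΦ.pos.ne' (Hd.hodge_eq hA hA.sq h2 hΦ.sq _)
  have h3 : inter P'.F P.F ≠ 0 := fun h3 => by
    have h4 := Hd.hodge_prop hA u.F_sq h3 (h.num P).F_sq Φ
    rw [inter_comm P'.F, h1, mul_zero, inter_comm P.F] at h4
    exact (mul_pos u.F_pos hΦ.pos).ne' h4
  have h4 : inter (S.vd X) (S.vd X) = 0 := by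
    rw [hz.vd, ← S.B_apply, map_sub, map_sub, AddMonoidHom.sub_apply, AddMonoidHom.sub_apply,
      S.B_apply, S.B_apply, S.B_apply, S.B_apply, inter_comm M S.kap, hz.KK, hz.KM, hz.MM]
    rfl
  have hvd : ∀ C q, P'.Over C q → inter (S.vd X) C.cl = 0 := fun C q hC => by
    have h5 := Hd.hodge_prop hA hΦ.sq hΦ.vd h4 C.cl
    rw [hP C (b.not_hor C q hC), mul_zero] at h5
    exact (mul_eq_zero.1 h5).resolve_left h2
  have key : ∀ q, ∃ G, P'.Over G q ∧ P.Hor G ∧ inter G.cl G.cl = 0 ∧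
      ∀ C, P'.Over C q → C = G := by
    intro q
    obtain ⟨G, hG, hG'⟩ : ∃ G, P'.Over G q ∧ P.Hor G := by
      by_contra hc
      refine h3 ?_
      rw [← u.num_fib q, inter_comm]
      exact (h.num P).F_vert' _ fun C hC => b.fib_zero C q fun h5 => hc ⟨C, h5, hC⟩
    have h5 : ∀ C, P'.Hor C → G.cl C = 0 := fun C hC =>
      Finsupp.single_eq_of_ne fun e : C = G => b.not_hor G q hG (e ▸ hC)
    have h6 : inter G.cl G.cl = 0 := by
      have h7 := hz.log G hG'
      rw [hA.add, hvd G q hG, zero_add] at h7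
      exact le_antisymm (u.vert_sq _ h5) h7
    refine ⟨G, hG, hG', h6, fun C hC => ?_⟩
    by_contra hc
    have h7 := h.zar P' _ h5 h6 q G C hG hC
    rw [Finsupp.single_eq_same, Finsupp.single_eq_of_ne hc, one_mul, zero_mul] at h7
    exact (b.fib_pos C q hC).ne' h7
  refine ⟨hz.ratb P' ?_, fun C q hC => ?_, fun C C' q hC hC' => ?_, fun C q hC => ?_, hvd⟩
  · obtain ⟨q⟩ := P019P.nonempty_Plk ℂ P'.k
    obtain ⟨G, hG, hG', -⟩ := key q
    obtain ⟨t, -, ht⟩ := P019P.exists_unif q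
    refine ⟨t, t.2, fun h5 => ?_⟩
    have h6 := b.ord_over G q hG t
    have h7 : G.ord (t : K) = 0 := (h.bas P).ord_hor G hG' ⟨t, h5⟩
    rw [h7, ht, mul_one] at h6
    exact (b.fib_pos G q hG).ne h6
  · obtain ⟨G, -, hG, -, e⟩ := key q
    rwa [e C hC]
  · obtain ⟨G, -, -, -, e⟩ := key q
    rw [e C hC, e C' hC']
  · obtain ⟨G, -, -, hG, e⟩ := key q
    rwa [e C hC]

end Vale.Agent.P297Z.Sf.En
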