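import Vale.Agent.P297Y.An.Crr
import Vale.Agent.P297Z.Surf.Defs
import Vale.Agent.P025.R2.H492.Genus

/-! P297, positive irregularity, the end of the proof: statements on Wronskians and on curves. -/

set_option linter.all false

open Finsupp

namespace Vale.Agent.P297Y.En

open Vale.Agent.P019P P025H492
open Vale.Agent.P297 (Place)
open Vale.Agent.P297Z.Sf (RegDer)

/-- The Wronskian. -/
noncomputable def wr {K : Type} [Field K] [Algebra ℂ K] {r : ℕ} (X : Derivation ℂ K K)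
    (f : Fin r → K) : K :=
  Matrix.det (Matrix.of fun i j : Fin r => (fun a => X a)^[j] (f i))

/-- The algebra of Wronskians. -/
structure WrA (K : Type) [Field K] [Algebra ℂ K] : Prop where
  smul : ∀ {r : ℕ} (X : Derivation ℂ K K) (g : K) (f : Fin r → K),
    wr (g • X) f = g ^ r.choose 2 * wr X f
  mul : ∀ {r : ℕ} (X : Derivation ℂ K K) (s : K) (f : Fin r → K),
    wr X (fun i => s * f i) = s ^ r * wr X f
  lin : ∀ {r : ℕ} (X : Derivation ℂ K K) (m : Matrix (Fin r) (Fin r) K) (f : Fin r → K),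
    (∀ i j, X (m i j) = 0) → wr X (fun i => ∑ j, m i j * f j) = m.det * wr X f
  tri : ∀ {r : ℕ} (X : Derivation ℂ K K) (m : Fin r → Fin r → K) (f : Fin r → K),
    (∀ i j, X (m i j) = 0) → (∀ i j, i ≤ j → m i j = 0) →
    wr X (fun i => f i + ∑ j, m i j * f j) = wr X f
  ne : ∀ {r : ℕ} (X : Derivation ℂ K K) (f : Fin r → K),
    (∀ c : Fin r → K, (∀ i, X (c i) = 0) → ∑ i, c i * f i = 0 → ∀ i, c i = 0) → wr X f ≠ 0
  mem : ∀ {r : ℕ} (X : Derivation ℂ K K) (f : Fin r → K) (A : Subring K),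
    (∀ a ∈ A, X a ∈ A) → (∀ i, f i ∈ A) → wr X f ∈ A
  tan : ∀ {r : ℕ} (X : Derivation ℂ K K) (f : Fin r → K) (P : Place K) (n : Fin r → ℤ),
    (∀ a, a ≠ 0 → X a = 0 ∨ P.ord a ≤ P.ord (X a)) → (∀ i, f i = 0 ∨ n i ≤ P.ord (f i)) →
    wr X f = 0 ∨ ∑ i, n i ≤ P.ord (wr X f)
  map : ∀ {r : ℕ} (X : Derivation ℂ K K) (A : Subalgebra ℂ K) (f : Fin r → A)
    (L : Type) [Field L] [Algebra ℂ L] (D : Derivation ℂ L L) (φ : A →ₐ[ℂ] L),
    (∀ a : A, ∃ h : X a ∈ A, φ ⟨X a, h⟩ = D (φ a)) →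
    ∃ h : wr X (fun i => (f i : K)) ∈ A, φ ⟨_, h⟩ = wr D fun i => φ (f i)

/-- The algebra of Wronskians. -/
def WRA : Prop := ∀ (K : Type) [Field K] [Algebra ℂ K], WrA K

/-- The weight of a point for a linear system. -/
def WRC : Prop := ∀ (L : Type) [Field L] [Algebra ℂ L] [CFF ℂ L] (D : Derivation ℂ L L)
  (y : Plk ℂ L) (a : L) (r : ℕ) (f : Fin r → L) (d : ℤ), 0 ≤ ord y a → D a ≠ 0 →
  ord y (D a) ≤ 0 → LinearIndependent ℂ f →
  (∀ g ∈ Submodule.span ℂ (Set.range f), ord y g ≤ d) →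
  wr D f ≠ 0 ∧ ord y (wr D f) ≤ r * (d - r + 1)

/-- `c` kills the principal divisors. -/
def Kill {L : Type} [Field L] [Algebra ℂ L] [CFF ℂ L] {Q : Type} [AddCommGroup Q]
    (c : Plk ℂ L → Q) : Prop := ∀ Z ∈ prn ℂ L, (Z.sum fun y n => n • c y) = 0

/-- The points of a fibre of a map between curves of genus one differ by torsion. -/
def TORS : Prop := ∀ (E L : Type) [Field E] [Field L] [Algebra ℂ E] [Algebra ℂ L] [Algebra E L]
  [IsScalarTower ℂ E L] [CFF ℂ E] [CFF ℂ L] [FiniteDimensional E L] (n : ℕ),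
  gen ℂ L ≤ 1 → 1 ≤ gen ℂ E → Module.finrank E L ≤ n → ∀ y y' : Plk ℂ L,
  down E y = down E y' → (n.factorial : ℤ) • (single y 1 - single y' 1) ∈ prn ℂ L

/-- On a curve of genus zero the divisors of degree zero are principal. -/
def GEN0 : Prop := ∀ (L : Type) [Field L] [Algebra ℂ L] [CFF ℂ L], gen ℂ L = 0 →
  ∀ Z : Plk ℂ L →₀ ℤ, dg Z = 0 → Z ∈ prn ℂ L

/-- The group of classes of degree zero is divisible. -/
def DIVC : Prop := ∀ (L : Type) [Field L] [Algebra ℂ L] [CFF ℂ L] (Q : Type) [AddCommGroup Q]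
  (c : Plk ℂ L → Q) (T : Set (Plk ℂ L)) (N : ℕ), Kill c → T.Finite → N ≠ 0 →
  (∀ y ∉ T, ∀ y' ∉ T, N • (c y - c y') = 0) → ∀ y y', c y = c y'

/-- All the points of the fibres of a map of curves have the same class up to torsion and the
fibres are equivalent. -/
def FIBC : Prop := ∀ (E L : Type) [Field E] [Field L] [Algebra ℂ E] [Algebra ℂ L] [Algebra E L]
  [IsScalarTower ℂ E L] [CFF ℂ E] [CFF ℂ L] [FiniteDimensional E L] (Q : Type) [AddCommGroup Q]
  (c : Plk ℂ L → Q) (N M : ℕ) (y y' : Plk ℂ L), Kill c →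
  (M : ℤ) • (single (down E y) 1 - single (down E y') 1) ∈ prn ℂ E →
  (∀ z, down E z = down E y → N • (c z - c y) = 0) →
  (∀ z, down E z = down E y' → N • (c z - c y') = 0) →
  (M * N * Module.finrank E L) • (c y - c y') = 0

/-- On a curve of genus at most one with a regular form `dψ / v`. -/
def LEMA : Prop := ∀ (E L : Type) [Field E] [Field L] [Algebra ℂ E] [Algebra ℂ L] [Algebra E L]
  [IsScalarTower ℂ E L] [CFF ℂ E] [CFF ℂ L] [FiniteDimensional E L] (n m : ℕ) (ψ μ : E) (v : L),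
  gen ℂ L ≤ 1 → Module.finrank E L ≤ n → m ≠ 0 → (∀ c : ℂ, ψ ≠ algebraMap ℂ E c) → v ≠ 0 →
  v ^ m = algebraMap E L μ → (∀ y : Plk ℂ L, ord y v ≤ wd (algebraMap E L ψ) y) →
  ∀ y y' : Plk ℂ L, down E y = down E y' → ord y v = 0 → vl y v = vl y' v →
  (n.factorial : ℤ) • (single y 1 - single y' 1) ∈ prn ℂ L

/-- On a curve over a curve of genus one, with a root of a function. -/
def LEMB : Prop := ∀ (E L : Type) [Field E] [Field L] [Algebra ℂ E] [Algebra ℂ L] [Algebra E L]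
  [IsScalarTower ℂ E L] [CFF ℂ E] [CFF ℂ L] [FiniteDimensional E L] (Q : Type) [AddCommGroup Q]
  (c : Plk ℂ L → Q) (n m N : ℕ) (μ s : E) (w : L) (b : Plk ℂ E), Kill c →
  gen ℂ E = 1 → Module.finrank E L ≤ n → m ≠ 0 → w ≠ 0 → w ^ m = algebraMap E L μ →
  (∀ p : Plk ℂ E, (m : ℤ) ∣ ord p μ) →
  (∀ y : Plk ℂ L, down E y = b → ord y (w * algebraMap E L s) = 0) →
  (∀ y y' : Plk ℂ L, down E y = b → down E y' = b →
    vl y (w * algebraMap E L s) = vl y' (w * algebraMap E L s) → N • (c y - c y') = 0) →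
  ∀ y y' : Plk ℂ L, down E y = b → down E y' = b →
    (n.factorial * N * n.factorial) • (c y - c y') = 0

end Vale.Agent.P297Y.En
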