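import Vale.Agent.P297Y.Alg.Sk
import Vale.Agent.P297Y.En.Sk1
import Vale.Agent.P297Y.Ctr.Hodge

/-! P297, positive irregularity, the end of the proof: statements on surfaces. -/

set_option linter.all false

namespace Vale.Agent.P297Z.Sf

open Vale.Agent.P019P (CFF Plk LL Mge gen dg dv prn)
open P025H492 (down wdv)
open Vale.Agent.P297Y.En (wr WRA WRC TORS GEN0 FIBC LEMA LEMB)

variable {K : Type} [Field K] [Algebra ℂ K]

/-- The general facts on curves, vector fields and pencils of the surface `S`. -/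
structure Surf.Api (S : Surf K) : Prop where
  cs : S.Cs
  gle : ∀ C : Crv S.W, 2 * (gen ℂ C.Fn : ℤ) - 2 ≤ S.ag C.cl
  geq : ∀ C : Crv S.W, S.Smooth C → 2 * (gen ℂ C.Fn : ℤ) - 2 = S.ag C.cl
  pple : ∀ (D : Div S.W) (V : Type) [AddCommGroup V] [Module ℂ V] [FiniteDimensional ℂ V]
    (φ : V →ₗ[ℂ] (Crv S.W → K)), (∀ v, S.LocSol D (φ v)) →
    (Module.finrank ℂ V : ℤ) ≤ Module.finrank ℂ ((S.Glob D).comap φ) + S.h1 D
  dr : S.Dr
  sing : ∀ X : Derivation ℂ K K, X ≠ 0 →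
    {x : Pt S.W | ∃ t, GenAt x (- S.vd X) t ∧ ∀ b ∈ x.ring, x.Van (t * X b)}.Finite
  bas : ∀ P : Pen S, P.Bas
  num : ∀ P : Pen S, P.Num
  penof : ∀ f : K, (∀ c : ℂ, f ≠ algebraMap ℂ K c) →
    (∀ x : Pt S.W, f ∈ x.ring ∨ f⁻¹ ∈ x.ring) → ∃ P : Pen S, f ∈ P.k
  zar : ∀ (P : Pen S) (V : Div S.W), (∀ C, P.Hor C → V C = 0) → inter V V = 0 →
    ∀ p C C', P.Over C p → P.Over C' p → V C * P.fib p C' = V C' * P.fib p C
  genf : ∀ P : Pen S, ∃ T : Finset (Plk ℂ P.k), ∀ p, p ∉ T → ∃ C, P.Good p C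

namespace Pen

variable {S : Surf K} (P : Pen S)

/-- The vector field `X` is tangent to the fibres. -/
structure Tg (X : Derivation ℂ K K) : Prop where
  ne : X ≠ 0
  ker : ∀ f, X f = 0 ↔ f ∈ P.k
  tang : ∀ C p, P.Over C p → ∀ t : K, t ≠ 0 → S.vd X C ≤ C.ord t →
    ∀ b : K, b ≠ 0 → t * X b = 0 ∨ C.ord b ≤ C.ord (t * X b)
  tang_ne : ∀ C p, P.Over C p → ∀ t : K, t ≠ 0 → S.vd X C = C.ord t →
    ∃ D : Derivation ℂ C.Fn C.Fn, D ≠ 0 ∧ ∀ b ∈ C.pl.ring, C.rs (t * X b) = D (C.rs b)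
  transv : ∀ C, P.Hor C → ∀ t : K, t ≠ 0 → S.vd X C = C.ord t →
    ∀ b : K, C.ord b ≠ 0 → t * X b ≠ 0 ∧ C.ord (t * X b) = C.ord b - 1

/-- The numerical situation; `m p` is the multiplicity of the fibre over `p`. -/
structure Zr (X : Derivation ℂ K K) (M : Div S.W) (m : Plk ℂ P.k → ℤ) : Prop where
  tg : P.Tg X
  vd : S.vd X = S.kap - M
  pg : H0 S.kap = ⊥
  nef : S.Nef S.kap
  chi : chi (0 : Div S.W) = 0
  gen : gen ℂ P.k = 1
  KK : inter S.kap S.kap = 0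
  KM : inter S.kap M = 0
  MM : inter M M = 0
  m_pos : ∀ p, 0 < m p
  m_fin : {p | m p ≠ 1}.Finite
  fib_over : ∀ C p, P.Over C p → P.fib p C = m p
  M_hor : ∀ C, P.Hor C → M C = 0
  M_over : ∀ C p, P.Over C p → M C = m p - 1
  ratb : ∀ P' : Pen S, (∃ f ∈ P'.k, f ∉ P.k) → P019P.gen ℂ P'.k = 0
  log : ∀ C, P.Hor C → 0 ≤ inter (S.vd X + C.cl) C.cl

/-- `V` is vertical, with coefficient `j p` along the components of the fibre over `p`. -/
structure IsRed (j : Plk ℂ P.k →₀ ℤ) (V : Div S.W) : Prop where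
  hor : ∀ C, P.Hor C → V C = 0
  ov : ∀ C p, P.Over C p → V C = j p

/-- `f` is `e i` plus a combination of the earlier `e j`. -/
def Low {r : ℕ} (e : Fin r → K) (i : Fin r) (f : K) : Prop :=
  ∃ c : Fin r → P.k, (∀ j, i ≤ j → c j = 0) ∧ f = e i + ∑ j, (c j : K) * e j

/-- The largest orders of vanishing along the fibres in a flag. -/
structure Flag (A : Div S.W) {r : ℕ} (e : Fin r → K) (n : Fin r → Plk ℂ P.k →₀ ℤ) : Prop where
  ex : ∀ i p, ∃ f, P.Low e i f ∧ ∀ C, P.Over C p → n i p ≤ C.ord f + A C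
  max : ∀ i p f (N : ℤ), P.Low e i f → (∀ C, P.Over C p → N ≤ C.ord f + A C) → N ≤ n i p

/-- The Wronskian divisor. -/
noncomputable def _root_.Vale.Agent.P297Z.Sf.Surf.W0 (S : Surf K) (X : Derivation ℂ K K)
    (A : Div S.W) {r : ℕ} (e : Fin r → K) : Div S.W :=
  div S.W (wr X e) + (r : ℤ) • A + (r.choose 2 : ℤ) • S.vd X

/-- The decomposition of the Wronskian divisor. -/
structure Wn (X : Derivation ℂ K K) (M A : Div S.W) (r : ℕ) (Wh E V : Div S.W) : Prop where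
  rk : 2 * (r : ℤ) = 2 * inter P.F A - inter S.kap P.F
  nonneg : 0 ≤ Wh
  hor : ∀ C, Wh C ≠ 0 → P.Hor C
  E_nonneg : 0 ≤ E
  E_vert : ∀ C, P.Hor C → E C = 0
  V_num : ∀ Y, inter S.H P.F * inter V Y = inter S.H V * inter P.F Y
  num : ∀ Y, inter Wh Y + inter E Y + inter V Y = r * inter A Y + r.choose 2 * inter (S.vd X) Y
  low : 2 * inter S.H P.F * chi A + r * inter S.H M ≤ 2 * inter S.H V
  wt : ∀ C, Wh C ≤ r * (inter P.F A - r + 1)

/-- All the Wronskian divisors. -/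
def HasWn (X : Derivation ℂ K K) (M : Div S.W) : Prop := ∀ A : Div S.W,
  inter S.kap P.F < inter P.F A → ∃ r Wh E V, P.Wn X M A r Wh E V

/-- The class of the fibres of the second pencil. -/
structure Phi (X : Derivation ℂ K K) (Φ : Div S.W) : Prop where
  nef : S.Nef Φ
  sq : inter Φ Φ = 0
  pos : 0 < inter Φ P.F
  vd : inter Φ (S.vd X) = 0
  inf : {C | P.Hor C ∧ inter Φ C.cl = 0}.Infinite

/-- The second pencil. -/
structure Sec (X : Derivation ℂ K K) (P' : Pen S) : Prop where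
  gen : gen ℂ P'.k = 0
  hor : ∀ C q, P'.Over C q → P.Hor C
  uniq : ∀ C C' q, P'.Over C q → P'.Over C' q → C = C'
  sq : ∀ C q, P'.Over C q → inter C.cl C.cl = 0
  vd : ∀ C q, P'.Over C q → inter (S.vd X) C.cl = 0

/-- The points common to two fibres are equivalent up to torsion. -/
def Mid (P' : Pen S) : Prop := ∀ (Q : Type) [AddCommGroup Q] (c : Pt S.W → Q), S.Kill c →
  ∃ T : Finset (Plk ℂ P.k), ∀ p, p ∉ T → ∀ C, P.Good p C → ∃ N : ℕ, N ≠ 0 ∧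
    ∃ T' : Finset (Plk ℂ P'.k), ∀ x x' : Pt S.W, P.π x = p → P.π x' = p → P'.π x = P'.π x' →
      P'.π x ∉ T' → N • (c x - c x') = 0

/-- The root of a function on the base curve. -/
structure Kum (P' : Pen S) (ψ : P'.k) (w : K) (a : Plk ℂ P.k →₀ ℤ) (n : ℕ) (lam : P.k) (h : P'.k)
    (T : Div S.W) : Prop where
  nc : ∀ c : ℂ, ψ ≠ algebraMap ℂ P'.k c
  w_ne : w ≠ 0
  div_w : div S.W w = T - P.pull a
  T_hor : ∀ C, P'.Hor C → T C = 0
  T_over : ∀ C q, P'.Over C q → T C + 1 = P'.fib q C * (wdv ℂ ψ q + 1)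
  n_ne : n ≠ 0
  lam_ne : lam ≠ 0
  dv_lam : dv ℂ lam = (n : ℤ) • a
  h_eq : (h : K) = lam * w ^ n

end Pen

namespace En

/-- The residue of the logarithmic form. -/
def LOGH : Prop := ForAll fun {K} _ _ S => S.Api → ∀ (P : Pen S) (X : Derivation ℂ K K), P.Tg X →
  ∀ C, P.Hor C → 0 ≤ inter (S.vd X + C.cl) C.cl

/-- The situation of a minimal surface. -/
def ZR : Prop := ForAll fun S => S.Api → (∀ P : Pen S, P.Dr) →
  (∀ (φ : Fm S) (P : Pen S), H0 S.kap = ⊥ → (∃ f ∈ P.k, f ∉ φ.k) → gen ℂ P.k = 0) →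
  ∀ φ : Fm S, φ.Zero → ∃ m, φ.pen.Zr φ.X φ.M m

/-- The multiples of the reduced fibres. -/
def RED : Prop := ForAll fun {K} _ _ S => S.Api → ∀ (P : Pen S) (X : Derivation ℂ K K) M m,
  P.Zr X M m → (∀ j, ∃ V, P.IsRed j V) ∧ ∃ ρ : Plk ℂ P.k → ℤ, (∀ p, 0 < ρ p) ∧
    (∀ p, m p * ρ p = inter S.H P.F) ∧ ∀ j V, P.IsRed j V →
      inter S.H V = j.sum (fun p n => n * ρ p) ∧
      ∀ Y, inter S.H P.F * inter V Y = inter S.H V * inter P.F Y

/-- The identity of Hermite. -/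
def HERM : Prop := ∀ (r : ℕ) (n : Fin r → ℤ) (m : ℤ), 0 < m → ∃ j : ℤ, 0 ≤ j ∧ j < m ∧
  2 * (m * ∑ i, (n i - j) / m + r * j) ≤ 2 * ∑ i, n i - r * (m - 1)

/-- The flag. -/
def WR1 : Prop := ForAll fun {K} _ _ S => S.Api → ∀ (P : Pen S) (X : Derivation ℂ K K), P.Tg X →
  ∀ (A : Div S.W) (r : ℕ) (e : Fin r → K), LinearIndependent P.k e → (∀ i, e i ∈ P.sec A) →
  wr X e ≠ 0 ∧ (∀ C, P.Hor C → 0 ≤ S.W0 X A e C) ∧
    ∃ n, P.Flag A e n ∧ ∀ C p, P.Over C p → ∑ i, n i p ≤ S.W0 X A e C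

/-- The rank and the weights. -/
def WR2 : Prop := ForAll fun {K} _ _ S => S.Api → ∀ (P : Pen S) (X : Derivation ℂ K K), P.Tg X →
  ∀ (A : Div S.W) (r : ℕ) (e : Fin r → K), LinearIndependent P.k e → (∀ i, e i ∈ P.sec A) →
  inter S.kap P.F < inter P.F A → 0 ≤ inter P.F A →
  2 * (r : ℤ) ≤ 2 * inter P.F A - inter S.kap P.F ∧
    ∀ C, P.Hor C → S.W0 X A e C ≤ r * (inter P.F A - r + 1)

/-- The degree of the direct image. -/
def WR3 : Prop := ForAll fun {K} _ _ S => S.Api → ∀ (P : Pen S) (X : Derivation ℂ K K) M m,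
  P.Zr X M m → ∀ (A : Div S.W) (r : ℕ) (e : Fin r → K), LinearIndependent P.k e →
  P.sec A ≤ Submodule.span P.k (Set.range e) → inter S.kap P.F < inter P.F A →
  ∀ n, P.Flag A e n → ∀ j J, P.IsRed j J → ∀ a : Fin r → Plk ℂ P.k →₀ ℤ,
  (∀ i p, a i p = (n i p - j p) / m p) →
  2 * inter P.F A - inter S.kap P.F ≤ 2 * (r : ℤ) ∧
    (2 * (r : ℤ) = 2 * inter P.F A - inter S.kap P.F → chi (A - J) ≤ ∑ i, dg (a i))

/-- The Wronskian divisors. -/
def WRN : Prop := ForAll fun {K} _ _ S => S.Api → ∀ (P : Pen S) (X : Derivation ℂ K K) M m,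
  P.Zr X M m → P.HasWn X M

/-- Fibres of genus at least two. -/
def G2 : Prop := ForAll fun {K} _ _ S => S.Api → ∀ (P : Pen S) (X : Derivation ℂ K K) M m,
  P.Zr X M m → P.HasWn X M → 0 < inter S.kap P.F → M = 0 ∧ P.Phi X S.kap

/-- The canonical class of an elliptic fibration. -/
def G1A : Prop := ForAll fun {K} _ _ S => S.Api → ∀ (P : Pen S) (X : Derivation ℂ K K) M m,
  P.Zr X M m → inter S.kap P.F = 0 →
  ∃ (w : K) (a : Plk ℂ P.k →₀ ℤ), w ≠ 0 ∧ dg a ≤ 0 ∧ S.vd X + div S.W w ≤ P.pull a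

/-- Fibres of genus one. -/
def G1B : Prop := ForAll fun {K} _ _ S => S.Api → ∀ (P : Pen S) (X : Derivation ℂ K K) M m,
  P.Zr X M m → P.HasWn X M → inter S.kap P.F = 0 → ∀ (w : K) (a : Plk ℂ P.k →₀ ℤ), w ≠ 0 →
  dg a ≤ 0 → S.vd X + div S.W w ≤ P.pull a →
  dg a = 0 ∧ S.vd X + div S.W w = P.pull a ∧ ∃ Φ, P.Phi X Φ

/-- The second pencil exists. -/
def PEN1 : Prop := ForAll fun {K} _ _ S => S.Api → ∀ (P : Pen S) (X : Derivation ℂ K K) M m,
  P.Zr X M m → ∀ Φ, P.Phi X Φ → ∃ P' : Pen S, ∀ C, ¬ P'.Hor C → inter Φ C.cl = 0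

/-- The fibres of the second pencil. -/
def PEN2 : Prop := ForAll fun {K} _ _ S => S.Api → ∀ (P : Pen S) (X : Derivation ℂ K K) M m,
  P.Zr X M m → ∀ Φ, P.Phi X Φ → ∀ P' : Pen S, (∀ C, ¬ P'.Hor C → inter Φ C.cl = 0) → P.Sec X P'

/-- Fibres of genus at least two, the common points. -/
def FIN2 : Prop := ForAll fun {K} _ _ S => S.Api → ∀ (P : Pen S) (X : Derivation ℂ K K) m,
  P.Zr X 0 m → ∀ P' : Pen S, P.Sec X P' → P.Mid P'

/-- Fibres of genus one, the root. -/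
def FIN1A : Prop := ForAll fun {K} _ _ S => S.Api → ∀ (P : Pen S) (X : Derivation ℂ K K) M m,
  P.Zr X M m → ∀ P' : Pen S, P.Sec X P' → ∀ (w : K) (a : Plk ℂ P.k →₀ ℤ), w ≠ 0 →
  S.vd X + div S.W w = P.pull a → ∃ ψ w' n lam h T, P.Kum P' ψ w' a n lam h T

/-- Fibres of genus one, the common points. -/
def FIN1B : Prop := ForAll fun {K} _ _ S => S.Api → ∀ (P : Pen S) (X : Derivation ℂ K K) M m,
  P.Zr X M m → inter S.kap P.F = 0 → ∀ P' : Pen S, P.Sec X P' → ∀ ψ w a n lam h T,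
  P.Kum P' ψ w a n lam h T → P.Mid P'

/-- From the common points to the fibres. -/
def FINC : Prop := ForAll fun {K} _ _ S => S.Api → ∀ (P : Pen S) (X : Derivation ℂ K K)
  (P' : Pen S), P.Sec X P' → P.Mid P' → P.Tors

theorem tors_of (wrn : WRN) (g2 : G2) (g1a : G1A) (g1b : G1B) (pen1 : PEN1) (pen2 : PEN2)
    (fin2 : FIN2) (fin1a : FIN1A) (fin1b : FIN1B) (finc : FINC) {S : Surf K} (h : S.Api)
    {P : Pen S} {X : Derivation ℂ K K} {M m} (hz : P.Zr X M m) : P.Tors := by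
  have hw := wrn K S h P X M m hz
  have h0 : 0 ≤ inter S.kap P.F := by
    refine Rul.nef_eff S.all hz.nef fun C => ?_
    by_cases hC : P.Over C (P019P.nonempty_Plk ℂ P.k).some
    · exact ((h.bas P).fib_pos C _ hC).le
    · exact ((h.bas P).fib_zero C _ hC).ge
  rcases h0.lt_or_eq with h1 | h1
  · obtain ⟨rfl, hΦ⟩ := g2 K S h P X M m hz hw h1
    obtain ⟨P', hP⟩ := pen1 K S h P X _ m hz _ hΦ
    have hs := pen2 K S h P X _ m hz _ hΦ P' hP
    exact finc K S h P X P' hs (fin2 K S h P X m hz P' hs)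
  · obtain ⟨w, a, w0, ha, hle⟩ := g1a K S h P X M m hz h1.symm
    obtain ⟨-, he, Φ, hΦ⟩ := g1b K S h P X M m hz hw h1.symm w a w0 ha hle
    obtain ⟨P', hP⟩ := pen1 K S h P X _ m hz _ hΦ
    have hs := pen2 K S h P X _ m hz _ hΦ P' hP
    obtain ⟨ψ, w', n, lam, g, T, hk⟩ := fin1a K S h P X M m hz P' hs w a w0 he
    exact finc K S h P X P' hs (fin1b K S h P X M m hz h1.symm P' hs ψ w' a n lam g T hk)

/-- The general facts hold for all surfaces. -/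
def API : Prop := ForAll fun S => S.Api

theorem api_of (cs : CS) (gle : GLE) (geq : GEQ) (pple : PPLE) (der : DER) (sing : SING)
    (penb : PENB) (penn : PENN) (penof : PENOF) (zar : ZAR) (genf : GENF) : API :=
  fun K _ _ S => ⟨cs K S, gle K S, geq K S, pple K S, der K S, sing K S, penb K S, penn K S,
    penof K S, fun P V h h' => (zar K S P V h h').2, genf K S⟩

theorem endg_of (api : API) (pend : PEND) (ratb : RATB) (zr : ZR) (wrn : WRN) (g2 : G2)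
    (g1a : G1A) (g1b : G1B) (pen1 : PEN1) (pen2 : PEN2) (fin2 : FIN2) (fin1a : FIN1A)
    (fin1b : FIN1B) (finc : FINC) : ENDG := by
  intro K _ _ S φ hφ
  obtain ⟨m, hm⟩ := zr K S (api K S) (pend K S) (fun ψ P h => ratb K S h ψ P) φ hφ
  exact tors_of wrn g2 g1a g1b pen1 pen2 fin2 fin1a fin1b finc (api K S) hm

end En

end Vale.Agent.P297Z.Sf
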