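import Vale.Agent.P297Y.En.Sk1
import Vale.Agent.P025.R2.H816.Pic
import Vale.Agent.P025.R2.H492.Ext5

/-! P297, positive irregularity: divisor classes on curves. -/

open Finsupp

namespace Vale.Agent.P297Y.En

open Vale.Agent.P019P P025H492 P025H816

variable {L Q : Type} [Field L] [Algebra ℂ L] [CFF ℂ L] [AddCommGroup Q]

theorem gen0 : GEN0 := by
  intro L _ _ _ h Z hZ
  have h1 := RR Z
  obtain ⟨z, hz, h2⟩ := exists_ne_zero_of_l (D := Z) (by omega)
  refine ⟨z⁻¹, inv_ne_zero hz, ?_⟩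
  rw [dv_inv, eq_neg_iff_add_eq_zero]
  exact (eq_of_le_of_dg_le h2 (by rw [map_add, hZ, dg_dv, map_zero, add_zero])).symm

/-- in genus at most one a divisor of degree one is equivalent to a point -/
theorem exists_pt (h : gen ℂ L ≤ 1) {Z : Plk ℂ L →₀ ℤ} (hZ : dg Z = 1) :
    ∃ R, single R 1 - Z ∈ prn ℂ L := by
  have h1 := RR Z
  obtain ⟨z, hz, h2⟩ := exists_ne_zero_of_l (D := Z) (by omega)
  have h3 : dg (Z + dv ℂ z) = 1 := by rw [map_add, hZ, dg_dv, add_zero]
  obtain ⟨R, hR⟩ : ∃ R, (Z + dv ℂ z) R ≠ 0 := by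
    by_contra! h4
    rw [show Z + dv ℂ z = 0 from Finsupp.ext h4, map_zero] at h3
    omega
  refine ⟨R, z, hz, ?_⟩
  rw [sub_eq_iff_eq_add']
  refine eq_of_le_of_dg_le (fun y => ?_) (by rw [h3, dg_sgl])
  have : 0 ≤ (Z + dv ℂ z) y := h2 y
  rcases eq_or_ne y R with rfl | h4
  · rw [single_eq_same]
    omega
  · rwa [single_eq_of_ne h4]

/-- in positive genus distinct points are not equivalent -/
theorem eq_of_prn (h : 1 ≤ gen ℂ L) {P R : Plk ℂ L} (hz : single P 1 - single R 1 ∈ prn ℂ L) :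
    P = R := by
  classical
  by_contra hne
  obtain ⟨z, hz, e⟩ := hz
  have h1 : ∀ n : ℕ, n + 1 ≤ Module.finrank ℂ (LL ℂ (single R (n : ℤ))) := fun n => by
    induction n with
    | zero => rw [Nat.cast_zero, single_zero, l_zero]
    | succ n ih =>
      refine (Nat.succ_le_succ ih).trans (Submodule.finrank_lt_finrank_of_lt
        (SetLike.lt_iff_le_and_exists.2 ⟨LL_mono (single_le_single.2 (by omega)), z ^ (n + 1),
          Or.inr fun y => ?_, fun h2 => ?_⟩))
      · rw [ord_pow, ← dv_apply, ← e]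
        simp only [Finsupp.sub_apply, single_apply]
        split_ifs <;> omega
      · have h3 := (mem_LL.1 h2).resolve_left (pow_ne_zero _ hz) R
        rw [ord_pow, ← dv_apply, ← e] at h3
        simp [hne] at h3
  have h2 := h1 (2 * gen ℂ L)
  have h3 := h4_l_eq (D := single R ((2 * gen ℂ L : ℕ) : ℤ)) (by rw [dg_sgl]; omega)
  rw [dg_sgl] at h3
  omega

theorem tors : TORS := by
  intro E L _ _ _ _ _ _ _ _ _ n hL hE hn y y' h
  let H := (prn ℂ E).comap (push E (L := L))
  have hH : ∀ R, down E R = down E y' → single R 1 - single y' 1 ∈ H := fun R hR => by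
    rw [AddSubgroup.mem_comap, map_sub, push_single, push_single, hR, sub_self]
    exact zero_mem _
  let f : (over_finite (L := L) (down E y')).toFinset → H ⧸ (prn ℂ L).addSubgroupOf H :=
    fun R => QuotientAddGroup.mk ⟨_, hH R (mem_over.1 R.2)⟩
  have hf : Function.Surjective f := by
    rintro ⟨D, hD⟩
    have h1 : dg D = 0 := by
      obtain ⟨z, -, e⟩ := hD
      rw [← dg_push (K := E), e, dg_dv]
    obtain ⟨R, hR⟩ := exists_pt hL (Z := D + single y' 1) (by rw [map_add, h1, dg_sgl, zero_add])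
    have h2 := add_mem (push_prn (K := E) hR) hD
    rw [map_sub, map_add, push_single, push_single, sub_add_eq_add_sub, add_comm,
      add_sub_add_left_eq_sub] at h2
    refine ⟨⟨R, mem_over.2 (eq_of_prn hE h2)⟩, (QuotientAddGroup.eq.2 ?_).symm⟩
    rw [AddSubgroup.mem_addSubgroupOf]
    convert hR using 1
    simp only [AddSubgroup.coe_add, AddSubgroup.coe_neg]
    abel
  have := Finite.of_surjective f hf
  obtain ⟨k, hk⟩ := Nat.dvd_factorial (Nat.card_pos (α := H ⧸ (prn ℂ L).addSubgroupOf H))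
    (((Nat.card_le_card_of_surjective f hf).trans_eq (Nat.card_eq_finsetCard _)).trans
      ((card_fibre_le _).trans hn))
  rw [natCast_zsmul, hk, mul_nsmul]
  exact nsmul_mem ((prn ℂ L).nsmul_relIndex_mem (hH y h)) k

omit [CFF ℂ L] in
theorem sum_kill {c : Plk ℂ L → Q} {Z : Plk ℂ L →₀ ℤ} {y : Plk ℂ L} {N : ℕ}
    (h : ∀ P, Z P ≠ 0 → N • (c P - c y) = 0) :
    N • linearCombination ℤ c Z = dg Z • N • c y := by
  rw [linearCombination_apply, dg_apply, Finsupp.sum, Finsupp.sum, Finset.smul_sum,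
    Finset.sum_smul]
  refine Finset.sum_congr rfl fun P hP => ?_
  rw [smul_comm, sub_eq_zero.1 ((smul_sub N _ _).symm.trans (h P (mem_support_iff.1 hP)))]

theorem divc : DIVC := by
  intro L _ _ _ Q _ c T N hc hT hN h y y'
  have hk : ∀ Z ∈ prn ℂ L, linearCombination ℤ c Z = 0 := hc
  obtain ⟨D, h1, h2⟩ := pic0_div (k := ℂ) (n := N) (by exact_mod_cast hN)
    (single y 1 - single y' 1) (by rw [map_sub, dg_sgl, dg_sgl, sub_self])
  obtain ⟨z, hz, h3⟩ := exists_ord_eq hT.toFinset fun P => -D P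
  have h4 : ∀ P, (D + dv ℂ z) P ≠ 0 → P ∉ T := fun P hP h5 => hP (by
    rw [Finsupp.add_apply, dv_apply, h3 P (hT.mem_toFinset.2 h5), add_neg_cancel])
  have h5 : N • linearCombination ℤ c (D + dv ℂ z) = 0 := by
    by_cases h6 : D + dv ℂ z = 0
    · rw [h6, map_zero, smul_zero]
    obtain ⟨P, hP⟩ := DFunLike.ne_iff.1 h6
    rw [sum_kill fun R hR => h R (h4 R hR) P (h4 P hP), map_add, h1, dg_dv, add_zero, zero_smul]
  have h6 := hk _ h2
  rw [map_add, hk _ ⟨z, hz, rfl⟩, add_zero] at h5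
  rwa [map_sub, map_nsmul, h5, sub_zero, map_sub, linearCombination_single,
    linearCombination_single, one_smul, one_smul, sub_eq_zero] at h6

theorem fibc : FIBC := by
  intro E L _ _ _ _ _ _ _ _ _ Q _ c N M y y' hc hM h h'
  have key : ∀ y : Plk ℂ L, (∀ z, down E z = down E y → N • (c z - c y) = 0) →
      N • linearCombination ℤ c (pull L (single (down E y) 1)) =
        (N * Module.finrank E L) • c y := fun y h => by
    rw [sum_kill (y := y) fun P hP => h P (by
      by_contra h1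
      exact hP (by rw [pull_apply, single_eq_of_ne h1, mul_zero])), dg_pull, dg_sgl, mul_one,
      natCast_zsmul, mul_nsmul]
  have h1 : linearCombination ℤ c _ = 0 := hc _ (pull_prn (L := L) hM)
  rw [natCast_zsmul, map_nsmul, map_nsmul, map_sub, map_sub] at h1
  rw [mul_assoc, mul_nsmul', smul_sub, ← key y h, ← key y' h', ← smul_sub, smul_comm, h1, smul_zero]

end Vale.Agent.P297Y.En
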