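import Vale.Agent.P297Y.En.Sk2

/-! P297, positive irregularity: the flag and the Wronskian divisor. -/

set_option linter.all false

namespace Vale.Agent.P297Z.Sf.En

open Vale.Agent.P019P (Plk)
open Vale.Agent.P297Y.En (wr WRA)

theorem wr1 (hw : WRA) : WR1 := by
  intro K _ _ S h P X hX A r e he hs
  classical
  have hw := hw K
  have hb := h.bas P
  have h0 : wr X e ≠ 0 := hw.ne X e fun c hc h1 i => by
    have h2 := Fintype.linearIndependent_iff.1 he (fun i => ⟨c i, (hX.ker _).1 (hc i)⟩) h1 i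
    exact congrArg Subtype.val h2
  have h1 : ∀ C : Crv S.W, ∃ t s : K, t ≠ 0 ∧ s ≠ 0 ∧ S.vd X C = C.ord t ∧ C.ord s = A C ∧
      ∀ f, wr X f = wr X e → wr (t • X) (fun i => s * f i) ≠ 0 ∧
        C.ord (wr (t • X) fun i => s * f i) = S.W0 X A e C := fun C => by
    obtain ⟨t, t0, ht⟩ := S.all.move {C} (S.vd X)
    obtain ⟨s, s0, hs⟩ := S.all.move {C} A
    replace ht := ht C (Finset.mem_singleton_self C)
    replace hs := hs C (Finset.mem_singleton_self C)
    refine ⟨t, s, t0, s0, ht.symm, hs, fun f hf => ?_⟩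
    have a1 := pow_ne_zero (r.choose 2) t0
    have a2 := pow_ne_zero r s0
    rw [hw.smul, hw.mul, hf]
    refine ⟨mul_ne_zero a1 (mul_ne_zero a2 h0), ?_⟩
    simp only [Surf.W0, Finsupp.add_apply, Finsupp.smul_apply, smul_eq_mul,
      div_apply S.all.toLoc2]
    unfold Crv.ord at *
    rw [Pl.ord_mul _ a1 (mul_ne_zero a2 h0), Pl.ord_mul _ a2 h0, Pl.ord_pow, Pl.ord_pow, ht, hs]
    ring
  have h2 : ∀ f : Fin r → K, (∀ i, P.Low e i (f i)) → ∀ C p, P.Over C p → ∀ N : Fin r → ℤ,
      (∀ i, N i ≤ C.ord (f i) + A C) → ∑ i, N i ≤ S.W0 X A e C := fun f hf C p hC N hN => by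
    obtain ⟨t, s, t0, s0, ht, hs, a1⟩ := h1 C
    choose c c1 c2 using hf
    obtain ⟨a2, a3⟩ := a1 f (by
      rw [funext c2]
      exact hw.tri X (fun i j => c i j) e (fun i j => (hX.ker _).2 (c i j).2)
        fun i j hij => by rw [c1 i j hij]; rfl)
    rw [← a3]
    refine (hw.tan (t • X) _ C.pl N (hX.tang C p hC t t0 ht.le) fun i => ?_).resolve_left a2
    by_cases e0 : f i = 0
    · exact Or.inl (by rw [e0, mul_zero])
    · refine Or.inr ((hN i).trans_eq ?_)
      rw [Pl.ord_mul _ s0 e0, ← hs, add_comm]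
  have h3 : ∀ i, P.Low e i (e i) := fun i => ⟨0, fun _ _ => rfl, by simp⟩
  have h4 : ∀ i p, ∃ n : ℤ, (∃ f, P.Low e i f ∧ ∀ C, P.Over C p → n ≤ C.ord f + A C) ∧
      ∀ N : ℤ, (∃ f, P.Low e i f ∧ ∀ C, P.Over C p → N ≤ C.ord f + A C) → N ≤ n := fun i p => by
    refine Int.exists_greatest_of_bdd ?_ ?_
    · obtain ⟨C, hC⟩ := hb.ex_crv p
      refine ⟨S.W0 X A e C - ∑ j ∈ Finset.univ \ {i}, (C.ord (e j) + A C), ?_⟩
      rintro N ⟨f, a1, a2⟩
      have a3 := h2 (Function.update e i f) (fun j => by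
          by_cases hj : j = i
          · rwa [hj, Function.update_self]
          · rw [Function.update_of_ne hj]
            exact h3 j) C p hC (Function.update (fun j => C.ord (e j) + A C) i N) fun j => by
        by_cases hj : j = i
        · rw [hj, Function.update_self, Function.update_self]
          exact a2 C hC
        · rw [Function.update_of_ne hj, Function.update_of_ne hj]
      rw [Finset.sum_update_of_mem (Finset.mem_univ i)] at a3
      exact le_sub_iff_add_le.2 a3
    · obtain ⟨N, hN⟩ := ((P.fib p).support.finite_toSet.image fun C => C.ord (e i) + A C).bddBelow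
      exact ⟨N, e i, h3 i, fun C hC =>
        hN ⟨C, Finsupp.mem_support_iff.2 (hb.fib_pos C p hC).ne', rfl⟩⟩
  choose n n1 n2 using h4
  have h5 : ∀ C p, P.Over C p → ∑ i, n i p ≤ S.W0 X A e C := fun C p hC => by
    choose f f1 f2 using fun i => n1 i p
    exact h2 f f1 C p hC _ fun i => f2 i C hC
  have h6 : ∀ i, (Function.support (n i)).Finite := fun i => by
    refine (((S.W0 X A e).support ∪ A.support ∪ Finset.univ.biUnion fun j =>
      (div S.W (e j)).support).finite_toSet.biUnion (t := fun C => {p | P.Over C p})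
        fun C _ => Set.Subsingleton.finite fun p hp q hq => hb.uniq C p q hp hq).subset
      fun p hp => by_contra fun hc => hp ?_
    simp only [Set.mem_iUnion, Finset.mem_coe, Finset.mem_union, Finset.mem_biUnion,
      Finsupp.mem_support_iff, div_apply S.all.toLoc2, Finset.mem_univ, true_and, not_exists,
      exists_prop, not_and] at hc
    have a1 : ∀ j ∈ Finset.univ, 0 ≤ n j p := fun j _ => n2 j p 0 ⟨e j, h3 j, fun C hC => by
      have a2 := fun a => hc C a hC
      have a3 : A C = 0 := by_contra fun a => a2 (Or.inl (Or.inr a))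
      have a4 : C.ord (e j) = 0 := by_contra fun a => a2 (Or.inr ⟨j, a⟩)
      omega⟩
    obtain ⟨C, hC⟩ := hb.ex_crv p
    have a2 : S.W0 X A e C = 0 := by_contra fun a => hc C (Or.inl (Or.inl a)) hC
    exact (Finset.sum_eq_zero_iff_of_nonneg a1).1
      (le_antisymm (a2 ▸ h5 C p hC) (Finset.sum_nonneg a1)) i (Finset.mem_univ i)
  refine ⟨h0, fun C hC => ?_, fun i => Finsupp.ofSupportFinite (n i) (h6 i),
    ⟨n1, fun i p f N a b => n2 i p N ⟨f, a, b⟩⟩, h5⟩
  obtain ⟨t, s, t0, s0, ht, hA, a1⟩ := h1 C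
  rw [← (a1 e rfl).2]
  refine Pl.ord_nonneg_of_mem _ (hw.mem (t • X) _ C.pl.ring.toSubring
    (h.dr.reg X hX.ne C t t0 ht.le) fun i => ?_)
  by_cases e0 : e i = 0
  · rw [e0, mul_zero]
    exact zero_mem _
  · refine (Pl.ord_nonneg_iff _ (mul_ne_zero s0 e0)).1 ?_
    have a2 := (hs i).resolve_left e0 C hC
    rwa [← hA, add_comm, ← Pl.ord_mul _ s0 e0] at a2

end Vale.Agent.P297Z.Sf.En
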