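import Vale.Agent.P297Y.En.Sk2

/-! P297, positive irregularity: the rank of the direct image and the weights. -/

set_option linter.all false

namespace Vale.Agent.P297Z.Sf.En

open Vale.Agent.P019P (CFF Plk LL Mge gen dg dv prn)
open P025H492 (down)
open Vale.Agent.P297Y.En (wr WRA WRC)

variable {K : Type} [Field K] [Algebra ℂ K] {S : Surf K}

namespace W2

theorem inf_plk (E : Type) [Field E] [Algebra ℂ E] [CFF ℂ E] : Infinite (Plk ℂ E) := by
  obtain ⟨x, hx, -⟩ := CFF.ex (k := ℂ) (F := E)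
  have h : ∀ a, x ≠ algebraMap ℂ E a := by
    rintro a rfl
    exact hx (isAlgebraic_algebraMap a)
  choose P hP using fun c : ℂ => P019P.exists_zero (P019P.nc_sub h c)
  refine .of_injective P fun c d e => ?_
  rw [← P025H492.vl_eq_of_pos (hP c), e, P025H492.vl_eq_of_pos (hP d)]

variable {P : Pen S} {r : ℕ} {e : Fin r → K}

theorem low_add {i : Fin r} {f : K} (hf : P.Low e i f) {g : Fin r → K} (hg : ∀ j, P.Low e j (g j))
    {b : Fin r → P.k} (hb : ∀ j, i ≤ j → b j = 0) : P.Low e i (f + ∑ j, (b j : K) * g j) := by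
  obtain ⟨c, hc, rfl⟩ := hf
  choose d hd hd' using hg
  refine ⟨fun l => c l + (b l + ∑ j, b j * d j l), fun l hl => ?_, ?_⟩
  · beta_reduce
    rw [hc l hl, hb l hl, zero_add, zero_add]
    refine Finset.sum_eq_zero fun j _ => ?_
    rcases le_total i j with h | h
    · rw [hb j h, zero_mul]
    · rw [hd j l (h.trans hl), mul_zero]
  · have h1 : ∑ j, (b j : K) * g j = ∑ l, ((b l : K) + ∑ j, (b j : K) * d j l) * e l := by
      simp only [add_mul, Finset.sum_mul, Finset.sum_add_distrib]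
      rw [Finset.sum_comm, ← Finset.sum_add_distrib]
      refine Finset.sum_congr rfl fun j _ => ?_
      rw [hd' j, mul_add, Finset.mul_sum]
      simp only [mul_assoc]
    rw [h1, add_assoc, ← Finset.sum_add_distrib]
    congr 1
    refine Finset.sum_congr rfl fun l _ => ?_
    push_cast
    ring

theorem low_ne (he : LinearIndependent P.k e) {i : Fin r} {f : K} (hf : P.Low e i f) : f ≠ 0 := by
  classical
  obtain ⟨c, hc, rfl⟩ := hf
  intro h0
  have h1 := Fintype.linearIndependent_iff.1 he ((Pi.single i 1 : Fin r → P.k) + c) (by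
    simp only [Pi.add_apply, add_smul, Finset.sum_add_distrib]
    rw [Finset.sum_eq_single i (fun j _ hj => by rw [Pi.single_eq_of_ne hj, zero_smul])
      (fun h => absurd (Finset.mem_univ i) h), Pi.single_eq_same, one_smul]
    exact h0) i
  rw [Pi.add_apply, Pi.single_eq_same, hc i le_rfl, add_zero] at h1
  exact one_ne_zero h1

theorem low_mem {A : Div S.W} (he : ∀ i, e i ∈ P.sec A) {i : Fin r} {f : K} (hf : P.Low e i f) :
    f ∈ P.sec A := by
  obtain ⟨c, -, rfl⟩ := hf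
  exact add_mem (he i) (Submodule.sum_mem _ fun j _ => (P.sec A).smul_mem (c j) (he j))

theorem fin_base (hB : P.Bas) (D : Div S.W) : {p | ∃ C, P.Over C p ∧ D C ≠ 0}.Finite := by
  refine (D.finite_support.biUnion (t := fun C => {p | P.Over C p}) fun C _ =>
    Set.Subsingleton.finite fun p hp q hq => hB.uniq C p q hp hq).subset ?_
  rintro p ⟨C, h1, h2⟩
  exact Set.mem_biUnion (Function.mem_support.2 h2) h1

theorem eq_of_good (hB : P.Bas) {p : Plk ℂ P.k} {C C' : Crv S.W} (hC : P.Good p C)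
    (h : P.Over C' p) : C' = C := by
  classical
  have h1 := hB.fib_pos C' p h
  rw [hC.fib_eq] at h1
  by_contra h2
  rw [Finsupp.single_eq_of_ne h2] at h1
  exact lt_irrefl _ h1

theorem hor_or (hB : P.Bas) {p : Plk ℂ P.k} {C C' : Crv S.W} (hC : P.Good p C) {x : Pt S.W}
    (hx : x.On C) (hx' : x.On C') : P.Hor C' ∨ C' = C := by
  refine (hB.dich C').imp_right fun ⟨q, hq⟩ => eq_of_good hB hC ?_
  rwa [← hB.pi_eq C p x hC.ov hx, hB.pi_eq C' q x hq hx']

theorem rs_sum (C : Crv S.W) {ι : Type} (s : Finset ι) {f : ι → K} (hf : ∀ i, f i ∈ C.pl.ring) :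
    C.rs (∑ i ∈ s, f i) = ∑ i ∈ s, C.rs (f i) := by
  classical
  induction s using Finset.induction_on with
  | empty => simpa using C.rs_zero
  | insert a s ha ih =>
    rw [Finset.sum_insert ha, Finset.sum_insert ha, C.rs_add (hf a) (sum_mem fun i _ => hf i), ih]

/-- The restrictions of the flag to a general fibre are independent. -/
theorem indep (hB : P.Bas) (he : LinearIndependent P.k e) {A : Div S.W}
    {n : Fin r → Plk ℂ P.k →₀ ℤ} (hn : P.Flag A e n) {p : Plk ℂ P.k} {C : Crv S.W}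
    (hC : P.Good p C) (h0 : ∀ i, n i p = 0) (hA : A C = 0) {f : Fin r → K}
    (hf : ∀ i, P.Low e i (f i)) (hm : ∀ i, f i ∈ C.pl.ring) :
    LinearIndependent ℂ fun i => C.rs (f i) := by
  classical
  refine Fintype.linearIndependent_iff.2 fun c hc => ?_
  by_contra hne
  push Not at hne
  obtain ⟨i, hi, hmax⟩ := Finset.exists_max_image (Finset.univ.filter fun j => c j ≠ 0) id
    (hne.imp fun j hj => Finset.mem_filter.2 ⟨Finset.mem_univ _, hj⟩)
  have ci := (Finset.mem_filter.1 hi).2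
  let b : Fin r → ℂ := Function.update (fun j => (c i)⁻¹ * c j) i 0
  have hb : ∀ j, i ≤ j → algebraMap ℂ P.k (b j) = 0 := fun j hj => by
    rcases hj.eq_or_lt with rfl | h
    · simp [b]
    · have h1 : c j = 0 := by
        by_contra h2
        exact absurd (hmax j (Finset.mem_filter.2 ⟨Finset.mem_univ _, h2⟩)) (not_le.2 h)
      simp [b, Function.update_of_ne h.ne', h1]
  have hl := low_add (hf i) hf hb
  have h1 : f i + ∑ j, ((algebraMap ℂ P.k (b j) : P.k) : K) * f j = ∑ j, ((c i)⁻¹ * c j) • f j := by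
    rw [← Finset.add_sum_erase _ _ (Finset.mem_univ i),
      ← Finset.add_sum_erase _ (fun j => ((c i)⁻¹ * c j) • f j) (Finset.mem_univ i), hb i le_rfl,
      inv_mul_cancel₀ ci, one_smul]
    simp only [ZeroMemClass.coe_zero, zero_mul, zero_add]
    congr 1
    refine Finset.sum_congr rfl fun j hj => ?_
    simp only [b, Function.update_of_ne (Finset.ne_of_mem_erase hj), Algebra.smul_def]
    rfl
  rw [h1] at hl
  have hs : ∀ j, ((c i)⁻¹ * c j) • f j ∈ C.pl.ring := fun j => C.alg.smul_mem (hm j) _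
  have h2 : C.rs (∑ j, ((c i)⁻¹ * c j) • f j) = 0 := by
    rw [rs_sum C _ hs]
    simp only [fun j => C.rs_smul ((c i)⁻¹ * c j) (hm j)]
    simp only [mul_smul]
    rw [← Finset.smul_sum, hc, smul_zero]
  have h3 := ((C.rs_eq_zero (sum_mem fun j _ => hs j)).1 h2).resolve_left (low_ne he hl)
  have h4 := hn.max i p _ 1 hl fun C' hC' => by
    rw [eq_of_good hB hC hC', hA]
    omega
  rw [h0] at h4
  omega

theorem ord_le {E : Type} [Field E] [Algebra ℂ E] [CFF ℂ E] {D : Plk ℂ E →₀ ℤ} {g : E}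
    (hg : g ∈ LL ℂ D) (h0 : g ≠ 0) (w : Plk ℂ E) : P019P.ord w g + D w ≤ dg D := by
  classical
  have h1 : Finsupp.single w (P019P.ord w g + D w) ≤ dv ℂ g + D := fun v => by
    have h2 := (P019P.mem_LL.1 hg).resolve_left h0 v
    rw [Finsupp.add_apply, P019P.dv_apply]
    by_cases h : v = w
    · rw [h, Finsupp.single_eq_same]
    · rw [Finsupp.single_eq_of_ne h]
      omega
  have h2 := P019P.dg_mono h1
  rwa [map_add, P019P.dg_dv, zero_add, P019P.dg_apply, Finsupp.sum_single_index rfl] at h2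

theorem card_le {E : Type} [Field E] [Algebra ℂ E] [CFF ℂ E] {D : Plk ℂ E →₀ ℤ} {g : Fin r → E}
    (hi : LinearIndependent ℂ g) (hg : ∀ i, g i ∈ LL ℂ D) (h : 2 * (gen ℂ E : ℤ) - 2 < dg D) :
    (r : ℤ) ≤ dg D + 1 - gen ℂ E := by
  have h2 := P019P.RR_large (D := D) (by rwa [P025H492.dg_can_eq])
  have h3 := (LinearIndependent.of_comp (LL ℂ D).subtype
    (v := fun i => (⟨g i, hg i⟩ : LL ℂ D)) (by exact hi)).fintype_card_le_finrank
  rw [Fintype.card_fin] at h3
  omega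

theorem wt_le (wrc : WRC) {E : Type} [Field E] [Algebra ℂ E] [CFF ℂ E] {Z : Plk ℂ E →₀ ℤ}
    {g : Fin r → E} (hi : LinearIndependent ℂ g) (hg : ∀ i, g i ∈ LL ℂ Z) (h : 0 ≤ dg Z)
    {D : Derivation ℂ E E} {w : Plk ℂ E} {a u : E} (ha : a ∈ w.1) (ha' : D a ∉ Mge w 1)
    (u0 : u ≠ 0) (hu : Z w = P019P.ord w u) :
    P019P.ord w (wr D fun i => u * g i) ≤ r * (dg Z - r + 1) := by
  rw [P019P.mem_Mge, not_or] at ha'
  refine (wrc E D w a r (fun i => u * g i) (dg Z) (P025H492.ord_nonneg_of_mem w ha) ha'.1 (by omega)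
    (hi.map' (LinearMap.mulLeft ℂ u) (LinearMap.ker_eq_bot.2 (mul_right_injective₀ u0)))
    fun g hg' => ?_).2
  have h3 : g ∈ (LL ℂ Z).map (LinearMap.mulLeft ℂ u) :=
    Submodule.span_le.2 (by rintro _ ⟨i, rfl⟩; exact ⟨_, hg i, rfl⟩) hg'
  obtain ⟨g', h5, rfl⟩ := h3
  by_cases h4 : g' = 0
  · rw [h4, map_zero, P019P.ord_zero]
    exact h
  · rw [LinearMap.mulLeft_apply, P019P.ord_mul w u0 h4, ← hu, add_comm]
    exact ord_le h5 h4 w

theorem le_rst (hc : S.Cs) {C G : Crv S.W} (GC : G ≠ C) {Y : Div S.W} (hY : Y C = 0)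
    {w : Plk ℂ C.Fn} (xG : (S.pt C w).On G) (h : ∀ C', (S.pt C w).On C' → 0 ≤ Y C') :
    Y G ≤ S.rst C Y w := by
  classical
  have g0 : G.cl C = 0 := Finsupp.single_eq_of_ne GC.symm
  have g1 : (Y - Y G • G.cl) C = 0 := by
    rw [Finsupp.sub_apply, Finsupp.smul_apply, g0, hY, smul_zero, sub_zero]
  have g2 := (hc.rst_nonneg C _ g1 w fun C' h1 => by
    rw [Finsupp.sub_apply, Finsupp.smul_apply]
    by_cases h3 : C' = G
    · rw [h3, Finsupp.single_eq_same, smul_eq_mul, mul_one, sub_self]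
    · rw [Finsupp.single_eq_of_ne h3, smul_zero, sub_zero]
      exact h C' h1).1
  obtain ⟨g3, g4⟩ := hc.rst_nonneg C G.cl g0 w fun C' _ => Finsupp.single_nonneg.2 zero_le_one C'
  have g5 : S.rst C G.cl w ≠ 0 := fun h3 => by
    have := g4.1 h3 G xG
    rw [Finsupp.single_eq_same] at this
    exact one_ne_zero this
  have g6 := hc.rst_add C _ (Y G • G.cl) g1 (by rw [Finsupp.smul_apply, g0, smul_zero])
  rw [sub_add_cancel, hc.rst_zsmul C _ _ g0] at g6
  rw [g6, Finsupp.add_apply, Finsupp.smul_apply, smul_eq_mul]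
  have g7 := mul_le_mul_of_nonneg_left (show 1 ≤ S.rst C G.cl w by omega) (h G xG)
  omega

theorem ord_gen {x : Pt S.W} {Y : Div S.W} {u : K} (hu : GenAt x (-Y) u) {C : Crv S.W}
    (h : x.On C) : C.ord u = Y C := by
  have := hu.2 C h
  rw [Finsupp.neg_apply] at this
  omega

theorem gen_W0 (wra : WRA) {X : Derivation ℂ K K} (hX : P.Tg X) {A : Div S.W} (w0 : wr X e ≠ 0)
    {f : Fin r → K} (hf : ∀ i, P.Low e i (f i)) {x : Pt S.W} {u t : K} (hu : GenAt x (-A) u)
    (ht : GenAt x (-S.vd X) t) : GenAt x (-S.W0 X A e) (wr (t • X) fun i => u * f i) := by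
  have hτ : wr (t • X) (fun i => u * f i) = t ^ r.choose 2 * (u ^ r * wr X e) := by
    choose c hc hc' using hf
    rw [(wra K).smul, (wra K).mul, funext hc', (wra K).tri X (fun i j => c i j) e
      (fun i j => (hX.ker _).2 (c i j).2) fun i j hij => by rw [hc i j hij]; rfl]
  rw [hτ]
  have t0 := pow_ne_zero (r.choose 2) ht.1
  have u0 := pow_ne_zero r hu.1
  refine ⟨mul_ne_zero t0 (mul_ne_zero u0 w0), fun C' h1 => ?_⟩
  rw [Crv.ord, Pl.ord_mul _ t0 (mul_ne_zero u0 w0), Pl.ord_mul _ u0 w0, Pl.ord_pow, Pl.ord_pow]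
  simp only [Surf.W0, Finsupp.neg_apply, Finsupp.add_apply, Finsupp.smul_apply, smul_eq_mul,
    div_apply S.all.toLoc2, ← ord_gen hu h1, ← ord_gen ht h1]
  ring

theorem rs_wr (wra : WRA) {C : Crv S.W} {X : Derivation ℂ K K} (hX : RegDer C.pl X)
    {D : Derivation ℂ C.Fn C.Fn} (hD : ∀ b ∈ C.pl.ring, C.rs (X b) = D (C.rs b)) {f : Fin r → K}
    (hf : ∀ i, f i ∈ C.pl.ring) : C.rs (wr X f) = wr D fun i => C.rs (f i) := by
  obtain ⟨h1, h2⟩ := (wra K).map X C.alg (fun i => ⟨f i, hf i⟩) C.Fn D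
    (C.rho fun _ h1 => h1) fun a => ⟨hX a a.2,
      (C.rs_of_mem (hX a a.2)).symm.trans ((hD a a.2).trans (congrArg D (C.rs_of_mem a.2)))⟩
  exact (C.rs_of_mem h1).trans (h2.trans (congrArg (wr D) (funext fun i =>
    (C.rs_of_mem (hf i)).symm)))

theorem exists_good (h : S.Api) (P : Pen S) {T : Set (Plk ℂ P.k)} (hT : T.Finite) :
    ∃ p C, p ∉ T ∧ P.Good p C := by
  obtain ⟨T', h'⟩ := h.genf P
  haveI := inf_plk P.k
  obtain ⟨p, hp⟩ := (hT.union T'.finite_toSet).exists_notMem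
  obtain ⟨C, hC⟩ := h' p fun h1 => hp (Or.inr h1)
  exact ⟨p, C, fun h1 => hp (Or.inl h1), hC⟩

theorem exists_meet (h : S.Api) {p : Plk ℂ P.k} {C G : Crv S.W} (hC : P.Good p C) (hG : P.Hor G) :
    ∃ w, (S.pt C w).On G := by
  haveI : Fact (P.Hor G) := ⟨hG⟩
  obtain ⟨w', hw'⟩ := P025H492.exists_over (L := G.Fn) p
  obtain ⟨C', xC, h1⟩ := (h.bas P).ex_over (S.pt G w')
  rw [← (h.num P).down_eq G w', hw'] at h1
  rw [eq_of_good (h.bas P) hC h1] at xC
  obtain ⟨w, hw⟩ := (h.cs.on_iff C _).1 xC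
  exact ⟨w, hw ▸ (h.cs.on_iff G _).2 ⟨w', rfl⟩⟩

theorem inter_good (hN : P.Num) {p : Plk ℂ P.k} {C : Crv S.W} (hC : P.Good p C) (Y : Div S.W) :
    inter Y C.cl = inter P.F Y := by
  rw [inter_comm, ← hC.fib_eq, hN.num_fib]

end W2

open W2

theorem wr2 (wra : WRA) (wrc : WRC) (wr1 : WR1) : WR2 := by
  intro K _ _ S h P X hX A r e he hs hK hA
  have hB := h.bas P
  have hN := h.num P
  have hc := h.cs
  obtain ⟨w0, hW, n, hn, -⟩ := wr1 K S h P X hX A r e he hs
  obtain ⟨p, C, hp, hC⟩ := exists_good h P (((((Set.finite_iUnion fun i =>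
    (n i).finite_support).union ((h.sing X hX.ne).image P.π)).union (fin_base hB A)).union
    (fin_base hB (S.W0 X A e))))
  have p2 : ∀ i, n i p = 0 := fun i => by_contra fun h1 =>
    hp (Or.inl (Or.inl (Or.inl (Set.mem_iUnion.2 ⟨i, h1⟩))))
  have hAC : A C = 0 := by_contra fun h1 => hp (Or.inl (Or.inr ⟨C, hC.ov, h1⟩))
  have hWC : S.W0 X A e C = 0 := by_contra fun h1 => hp (Or.inr ⟨C, hC.ov, h1⟩)
  choose f hf hf' using fun i => hn.ex i p
  have f0 := fun i => low_ne he (hf i)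
  have hst : ∀ i (x : Pt S.W), x.On C → f i ∈ stalk x A := fun i x hx =>
    Or.inr fun C' hC' => (hor_or hB hC hx hC').elim
      (fun h1 => (low_mem hs (hf i)).resolve_left (f0 i) C' h1) fun h1 => by
        rw [h1, ← p2 i]
        exact hf' i C hC.ov
  have hm : ∀ i, f i ∈ C.pl.ring := fun i => (Pl.ord_nonneg_iff C.pl (f0 i)).1 (by
    have := hf' i C hC.ov
    rwa [p2, hAC, add_zero] at this)
  have hi := indep hB he hn hC p2 hAC hf hm
  have hL : ∀ i, C.rs (f i) ∈ LL ℂ (S.rst C A) := fun i => hc.sec_glob C A hAC _ (hst i)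
  have hd : dg (S.rst C A) = inter P.F A := by rw [hc.dg_rst C A hAC, inter_good hN hC]
  refine ⟨?_, fun G hG => ?_⟩
  · have h1 := h.geq C hC.smooth
    rw [Surf.ag, inter_good hN hC, inter_good hN hC, inter_good hN hC, hN.F_sq,
      inter_comm P.F] at h1
    have h2 := card_le hi hL (by omega)
    omega
  obtain ⟨w, xG⟩ := exists_meet h hC hG
  have xC := (hc.on_iff C _).2 ⟨w, rfl⟩
  obtain ⟨u, hu⟩ : ∃ u, GenAt (S.pt C w) (-A) u := ⟨_, S.eqn_spec _ _⟩
  obtain ⟨t, ht⟩ : ∃ t, GenAt (S.pt C w) (-S.vd X) t := ⟨_, S.eqn_spec _ _⟩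
  have um : u ∈ C.pl.ring := (Pl.ord_nonneg_iff C.pl hu.1).1 ((ord_gen hu xC).trans hAC).ge
  have u0 : C.rs u ≠ 0 := fun h1 => by
    have := ((C.rs_eq_zero um).1 h1).resolve_left hu.1
    rw [ord_gen hu xC, hAC] at this
    exact lt_irrefl _ this
  obtain ⟨D, -, hD⟩ := hX.tang_ne C p hC.ov t ht.1 (ord_gen ht xC).symm
  obtain ⟨b, hb, hb'⟩ : ∃ b ∈ (S.pt C w).ring, ¬ (S.pt C w).Van (t * X b) := by
    by_contra h1
    push Not at h1
    exact hp (Or.inl (Or.inl (Or.inr ⟨_, ⟨t, ht, h1⟩, hB.pi_eq C p _ hC.ov xC⟩)))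
  rw [hc.pt_van C w _ (h.dr.reg_pt X hX.ne _ t ht b hb), hD b (xC b hb)] at hb'
  have h2 := wt_le wrc hi hL (hd ▸ hA) ((hc.pt_iff C w _).1 rfl b hb).2 hb' u0
    (hc.rst_apply C A hAC w u hu)
  have h3 := rs_wr wra (h.dr.reg X hX.ne C t ht.1 (ord_gen ht xC).ge) hD
    fun i => mul_mem um (hm i)
  simp only [fun i => C.rs_mul um (hm i)] at h3
  rw [← h3, ← hc.rst_apply C _ hWC w _ (gen_W0 wra hX w0 hf hu ht), hd] at h2
  exact (le_rst hc (fun h1 : G = C => hB.not_hor C p hC.ov (h1 ▸ hG)) hWC xG fun C' h1 =>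
    (hor_or hB hC xC h1).elim (hW C') fun h4 => (h4 ▸ hWC).ge).trans h2

end Vale.Agent.P297Z.Sf.En
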