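import Vale.Agent.P297Y.En.Sk2

/-! The degree of the direct image. -/

set_option linter.all false

namespace Vale.Agent.P297Z.Sf.En

open Vale.Agent.P019P (CFF Plk LL gen dg)
open Module

variable {K : Type} [Field K] [Algebra ℂ K]

namespace Wr3

/-- The dimension of a filtered space. -/
theorem flag_le {k : Type} [AddCommGroup k] [Module ℂ k] (r : ℕ) : ∀ (V : Type) [AddCommGroup V]
    [Module ℂ V] [FiniteDimensional ℂ V] (c : V →ₗ[ℂ] (Fin r → k)) (L : Fin r → Submodule ℂ k),
    (∀ i, FiniteDimensional ℂ (L i)) → Function.Injective c →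
    (∀ i v, (∀ j, i < j → c v j = 0) → c v i ∈ L i) → finrank ℂ V ≤ ∑ i, finrank ℂ (L i) := by
  induction r with
  | zero =>
    intro V _ _ _ c L _ hc _
    have := hc.subsingleton
    rw [finrank_zero_of_subsingleton]
    exact Nat.zero_le _
  | succ r ih =>
    intro V _ _ _ c L hL hc h
    let φ : V →ₗ[ℂ] k := (LinearMap.proj (Fin.last r)).comp c
    have h1 : finrank ℂ (LinearMap.range φ) ≤ finrank ℂ (L (Fin.last r)) :=
      Submodule.finrank_mono (by
        rintro _ ⟨v, rfl⟩
        exact h _ v fun j hj => absurd hj (Fin.le_last j).not_gt)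
    have h2 := ih (LinearMap.ker φ)
      ((LinearMap.funLeft ℂ k Fin.castSucc).comp (c.comp (LinearMap.ker φ).subtype))
      (fun i => L i.castSucc) (fun i => hL _)
      ((injective_iff_map_eq_zero _).2 fun v hv => Subtype.ext (hc (funext fun j => by
        rw [ZeroMemClass.coe_zero, map_zero]
        exact Fin.lastCases v.2 (fun i => congrFun hv i) j)))
      fun i v hv => h _ v fun j => Fin.lastCases (fun _ => v.2)
        (fun j hj => hv j (Fin.castSucc_lt_castSucc_iff.1 hj)) j
    rw [Fin.sum_univ_castSucc, ← φ.finrank_range_add_finrank_ker]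
    omega

variable {S : Surf K} {P : Pen S}

theorem h0_le (b : P.Bas) {m : Plk ℂ P.k → ℤ} (hm : ∀ p, 0 < m p)
    (hf : ∀ C p, P.Over C p → P.fib p C = m p) {A : Div S.W} {r : ℕ} {e : Fin r → K}
    (he : LinearIndependent P.k e) (hA : P.sec A ≤ Submodule.span P.k (Set.range e)) {n}
    (hn : P.Flag A e n) {j J} (hJ : P.IsRed j J) {a : Fin r → Plk ℂ P.k →₀ ℤ}
    (ha : ∀ i p, a i p = (n i p - j p) / m p) (D : Plk ℂ P.k →₀ ℤ) :
    h0 (A - J + P.pull D) ≤ ∑ i, (finrank ℂ (LL ℂ (a i + D)) : ℤ) := by
  have := Hd.fin S.all (A - J + P.pull D)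
  obtain ⟨g, hg⟩ := ((Fintype.linearCombination P.k e).restrictScalars
    ℂ).exists_leftInverse_of_injective
      (LinearMap.ker_eq_bot.2 he.fintypeLinearCombination_injective)
  have key : ∀ v ∈ H0 (A - J + P.pull D), ∑ i, (g v i : K) * e i = v := fun v hv => by
    obtain ⟨u, rfl⟩ := (Submodule.mem_span_range_iff_exists_fun _).1 (hA (x := v)
      (hv.imp_right fun h C hC => by
        have h1 := h C trivial
        rwa [Finsupp.add_apply, Finsupp.sub_apply, hJ.hor C hC, b.pull_hor C hC, sub_zero,
          add_zero] at h1))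
    have h1 : g (∑ i, u i • e i) = u := LinearMap.congr_fun hg u
    rw [h1]
    rfl
  have h1 := flag_le r (H0 (A - J + P.pull D)) (g.comp (H0 _).subtype) (fun i => LL ℂ (a i + D))
    (fun _ => inferInstance) (fun v w h => Subtype.ext (by
      rw [← key v v.2, ← key w w.2]
      exact congrArg (fun u : Fin r → P.k => ∑ i, (u i : K) * e i) h)) fun i v hv => ?_
  · unfold h0
    exact_mod_cast h1
  change g v i ∈ _
  replace hv : ∀ j, i < j → g v j = 0 := hv
  refine or_iff_not_imp_left.2 fun c0 p => ?_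
  have c1 : (g v i : K) ≠ 0 := fun h => c0 (Subtype.ext h)
  have v0 : (v : K) ≠ 0 := fun h => c0 (by rw [h, map_zero]; rfl)
  have h2 := hn.max i p (v / g v i) (j p - m p * (D p + P019P.ord p (g v i)))
    ⟨fun l => if l < i then g v l / g v i else 0, fun l hl => if_neg hl.not_gt, by
      beta_reduce
      rw [div_eq_iff c1, add_mul, Finset.sum_mul, ← sub_eq_iff_eq_add']
      nth_rewrite 1 [← key v v.2]
      rw [← Finset.add_sum_erase _ _ (Finset.mem_univ i), ← Finset.add_sum_erase _ _
        (Finset.mem_univ i), if_neg (lt_irrefl i), mul_comm (e i), add_sub_cancel_left,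
        ZeroMemClass.coe_zero, zero_mul, zero_mul, zero_add]
      refine Finset.sum_congr rfl fun l hl => ?_
      by_cases h : l < i
      · rw [if_pos h, IntermediateField.coe_div, mul_right_comm, div_mul_cancel₀ _ c1]
      · rw [if_neg h, hv l (lt_of_le_of_ne (not_lt.1 h) (Finset.ne_of_mem_erase hl).symm)]
        simp⟩ fun C hC => by
      have h3 := v.2.resolve_left v0 C trivial
      have h4 := b.ord_over C p hC (g v i)
      rw [Finsupp.add_apply, Finsupp.sub_apply, hJ.ov C p hC, b.pull_over C p hC] at h3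
      rw [hf C p hC] at h3 h4
      unfold Crv.ord at *
      rw [Pl.ord_div _ v0 c1, h4, mul_add]
      omega
  have h3 : -(D p + P019P.ord p (g v i)) ≤ a i p := by
    rw [ha, Int.le_ediv_iff_mul_le (hm p)]
    linarith
  rw [Finsupp.add_apply]
  omega

end Wr3

theorem wr3 : WR3 := by
  intro K _ _ S h P X M m hz A r e he hA hd n hn j J hJ a ha
  have hS := S.all
  have u := h.num P
  obtain ⟨p⟩ := P019P.nonempty_Plk ℂ P.k
  have hFJ : inter P.F (A - J) = inter P.F A := by
    rw [← interHom_apply hS.toRR, map_sub, interHom_apply, interHom_apply, u.F_vert' J hJ.hor,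
      sub_zero]
  have key : ∀ N : ℤ, (∀ i, dg (P019P.can ℂ P.k) < dg (a i) + N) → 2 * chi (A - J) +
      N * (2 * inter P.F A - inter S.kap P.F) ≤ 2 * ∑ i, dg (a i) + 2 * r * N := fun N hN => by
    have h1 := Wr3.h0_le (h.bas P) hz.m_pos hz.fib_over he hA hn hJ ha (Finsupp.single p N)
    have h2 : ∀ Y, inter (P.pull (Finsupp.single p N)) Y = N * inter P.F Y := fun Y => by
      rw [u.num, P019P.dg_sgl]
    generalize P.pull (Finsupp.single p N) = G at h1 h2
    rw [Finset.sum_congr rfl fun i _ => (P019P.RR_large (D := a i + Finsupp.single p N)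
      (by rw [map_add, P019P.dg_sgl]; exact hN i)).trans
      (show _ = dg (a i) + N by rw [map_add, P019P.dg_sgl, hz.gen]; simp), Finset.sum_add_distrib,
      Finset.sum_const, Finset.card_univ, Fintype.card_fin, nsmul_eq_mul] at h1
    have h3 : inter P.F G = 0 := by rw [inter_comm, h2, u.F_sq, mul_zero]
    have h4 := hS.le (A - J + G)
    rw [h0_bot (Rul.bot_of_neg hS u.F_nef (X := S.kap - (A - J + G)) (by
      rw [← interHom_apply hS.toRR, map_sub, map_add, interHom_apply, interHom_apply,
        interHom_apply, hFJ, h3, inter_comm]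
      omega))] at h4
    have h5 := hS.rr (A - J + G)
    have h6 := hS.rr (A - J)
    have h7 := h2 (A - J)
    have h8 := h2 G
    have h9 := h2 S.kap
    rw [hFJ] at h7
    rw [h3, mul_zero] at h8
    rw [inter_comm G, inter_comm P.F] at h9
    generalize A - J = B at *
    rw [hS.add, inter_comm B (B + G), inter_comm G (B + G), inter_comm S.kap, hS.add, hS.add,
      hS.add, inter_comm B G, inter_comm B S.kap, inter_comm G S.kap, h7, h8, h9] at h5
    linarith
  obtain ⟨N, h1, h2⟩ : ∃ N : ℤ, (∀ i, dg (P019P.can ℂ P.k) < dg (a i) + N) ∧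
      2 * ∑ i, dg (a i) - 2 * chi (A - J) < N := by
    obtain ⟨N, hN⟩ := (Set.finite_range fun i => dg (P019P.can ℂ P.k) - dg (a i)).bddAbove
    refine ⟨max N (2 * ∑ i, dg (a i) - 2 * chi (A - J)) + 1, fun i => ?_, by omega⟩
    have := hN ⟨i, rfl⟩
    simp only at this
    omega
  refine ⟨by_contra fun hc => ?_, fun hr => ?_⟩
  · have h3 := key (max N 0) fun i => (h1 i).trans_le (by omega)
    have h4 := mul_le_mul_of_nonneg_left (show 2 * (r : ℤ) + 1 ≤ 2 * inter P.F A - inter S.kap P.F
      by omega) (le_max_right N 0)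
    have h5 := le_max_left N 0
    linarith
  · have h3 := key N h1
    rw [← hr] at h3
    linarith

end Vale.Agent.P297Z.Sf.En
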