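import Vale.Agent.P297Y.En.Sk1
import Vale.Agent.P297Z.Surf.Ord

/-! The algebra of Wronskians. -/

open Finset

namespace Vale.Agent.P297Y.En

open Vale.Agent.P297 (Place)
open Vale.Agent.P297Z

namespace Wra

variable {K : Type} [Field K] [Algebra ℂ K] {r : ℕ}

theorem iter_eq (X : Derivation ℂ K K) (g s : K) (j : ℕ) : ∃ c : ℕ → K, c j = g ^ j * s ∧
    (∀ l, j < l → c l = 0) ∧ ∀ a N, j < N →
      (fun a => (g • X) a)^[j] (s * a) = ∑ l ∈ range N, c l * (fun a => X a)^[l] a := by
  induction j with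
  | zero =>
    refine ⟨fun l => if l = 0 then s else 0, by simp, fun l hl => if_neg hl.ne', fun a N hN => ?_⟩
    rw [sum_eq_single 0 (fun l _ hl => by simp [hl])
      fun h => absurd (mem_range.2 hN) h]
    simp
  | succ j ih =>
    obtain ⟨c, h1, h2, h3⟩ := ih
    refine ⟨fun l => g * X (c l) + g * (if l = 0 then 0 else c (l - 1)), ?_, fun l hl => ?_,
      fun a N hN => ?_⟩
    · simp only [h2 _ (Nat.lt_succ_self j), map_zero, mul_zero, zero_add, Nat.succ_ne_zero,
        if_false, Nat.add_sub_cancel, h1]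
      ring
    · simp only [h2 l (by omega), h2 (l - 1) (by omega), map_zero, ite_self, mul_zero, add_zero]
    · obtain ⟨N, rfl⟩ : ∃ N', N = N' + 1 := ⟨N - 1, by omega⟩
      rw [Function.iterate_succ_apply', h3 a N (by omega)]
      simp only [add_mul, sum_add_distrib]
      rw [sum_range_succ, sum_range_succ', h2 N (by omega)]
      simp only [map_sum, Derivation.smul_apply, Derivation.leibniz, smul_eq_mul, map_zero,
        mul_zero, zero_mul, add_zero, if_true, Nat.succ_ne_zero, if_false, Nat.add_sub_cancel,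
        Function.iterate_succ_apply', ← sum_add_distrib]
      exact sum_congr rfl fun l _ => by ring

theorem smul_mul (X : Derivation ℂ K K) (g s : K) (f : Fin r → K) :
    wr (g • X) (fun i => s * f i) = g ^ r.choose 2 * s ^ r * wr X f := by
  choose c h1 h2 h3 using iter_eq X g s
  have e : (Matrix.of fun i j : Fin r => (fun a => (g • X) a)^[j] (s * f i)) =
      (Matrix.of fun i j : Fin r => (fun a => X a)^[j] (f i)) *
        Matrix.of fun l j : Fin r => c j l := by
    ext i j
    rw [Matrix.mul_apply, Matrix.of_apply, h3 j _ r j.2, sum_range]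
    exact sum_congr rfl fun l _ => mul_comm _ _
  rw [wr, e, Matrix.det_mul, mul_comm, Matrix.det_of_isUpperTriangular
    (M := Matrix.of fun l j : Fin r => c j l) fun l j h => h2 j l h]
  simp only [Matrix.of_apply, h1, prod_mul_distrib, prod_const, card_univ, Fintype.card_fin,
    prod_pow_eq_pow_sum]
  rw [← sum_range fun i => i, sum_range_id, ← Nat.choose_two_right, wr]

theorem iter_sum (X : Derivation ℂ K K) {m : Fin r → K} (hm : ∀ k, X (m k) = 0) (f : Fin r → K)
    (j : ℕ) : (fun a => X a)^[j] (∑ k, m k * f k) = ∑ k, m k * (fun a => X a)^[j] (f k) := by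
  induction j with
  | zero => rfl
  | succ j ih =>
    simp only [Function.iterate_succ_apply', ih, map_sum, Derivation.leibniz, hm, smul_eq_mul,
      mul_zero, add_zero]

theorem lin (X : Derivation ℂ K K) (m : Matrix (Fin r) (Fin r) K) (f : Fin r → K)
    (h : ∀ i j, X (m i j) = 0) : wr X (fun i => ∑ j, m i j * f j) = m.det * wr X f := by
  rw [wr, wr, ← Matrix.det_mul]
  congr 1
  ext i j
  rw [Matrix.mul_apply, Matrix.of_apply, iter_sum X (h i)]
  rfl

theorem tri (X : Derivation ℂ K K) (m : Fin r → Fin r → K) (f : Fin r → K)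
    (h : ∀ i j, X (m i j) = 0) (h' : ∀ i j, i ≤ j → m i j = 0) :
    wr X (fun i => f i + ∑ j, m i j * f j) = wr X f := by
  have h1 := lin X (1 + Matrix.of m) f fun i j => by
    rw [Matrix.add_apply, map_add, Matrix.of_apply, h, add_zero, Matrix.one_apply]
    split_ifs <;> simp
  rw [Matrix.det_of_isLowerTriangular _ fun i j (hij : i < j) => by
    rw [Matrix.add_apply, Matrix.one_apply_ne hij.ne, Matrix.of_apply, h' i j hij.le, add_zero]]
    at h1
  simpa [h' _ _ le_rfl, add_mul, sum_add_distrib, Matrix.one_apply] using h1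

theorem ne (X : Derivation ℂ K K) (f : Fin r → K)
    (h : ∀ c : Fin r → K, (∀ i, X (c i) = 0) → ∑ i, c i * f i = 0 → ∀ i, c i = 0) :
    wr X f ≠ 0 := by
  induction r with
  | zero => simp [wr]
  | succ r ih =>
    have h1 := ih (fun i => f i.castSucc) fun c hc hs i => by
      have := h (Fin.snoc (α := fun _ => K) c 0) (fun i => by
        induction i using Fin.lastCases <;> simp [hc]) (by simpa [Fin.sum_univ_castSucc] using hs)
        i.castSucc
      simpa using this
    have h2 : ∀ u : Fin r → K, (∀ j : Fin r, ∑ i, u i * (fun a => X a)^[j] (f i.castSucc) = 0) →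
        u = 0 := fun u hu => Matrix.eq_zero_of_vecMul_eq_zero h1 (funext hu)
    intro h0
    obtain ⟨v, hv, h3⟩ := Matrix.exists_vecMul_eq_zero_iff.2 h0
    have h4 : ∀ j : Fin (r + 1), ∑ i, v i * (fun a => X a)^[j] (f i) = 0 := congrFun h3
    have h5 : v (Fin.last r) ≠ 0 := fun h5 => hv (funext fun i => by
      have h6 := h2 (fun i => v i.castSucc) fun j => by
        simpa [Fin.sum_univ_castSucc, h5] using h4 j.castSucc
      induction i using Fin.lastCases with
      | last => exact h5
      | cast i => exact congrFun h6 i)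
    obtain ⟨c, hc, h6⟩ : ∃ c : Fin (r + 1) → K, c (Fin.last r) = 1 ∧
        ∀ j : Fin (r + 1), ∑ i, c i * (fun a => X a)^[j] (f i) = 0 :=
      ⟨fun i => (v (Fin.last r))⁻¹ * v i, inv_mul_cancel₀ h5, fun j => by
        simp only [mul_assoc, ← mul_sum, h4, mul_zero]⟩
    have h7 := h2 (fun i => X (c i.castSucc)) fun j => by
      have a1 := congrArg X (h6 j.castSucc)
      have a2 := h6 j.succ
      simp only [Fin.val_succ, Function.iterate_succ_apply'] at a2
      simp only [map_sum, Derivation.leibniz, smul_eq_mul, sum_add_distrib, Fin.val_castSucc, a2,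
        zero_add, map_zero] at a1
      rw [Fin.sum_univ_castSucc, hc, X.map_one_eq_zero, mul_zero, add_zero] at a1
      simpa only [mul_comm] using a1
    refine one_ne_zero (hc.symm.trans (h c (fun i => ?_) (h6 0) _))
    induction i using Fin.lastCases with
    | last => rw [hc, X.map_one_eq_zero]
    | cast i => exact congrFun h7 i

theorem mem (X : Derivation ℂ K K) (f : Fin r → K) (A : Subring K) (h : ∀ a ∈ A, X a ∈ A)
    (hf : ∀ i, f i ∈ A) : wr X f ∈ A := by
  have h1 : ∀ j, ∀ a ∈ A, (fun a => X a)^[j] a ∈ A := fun j a ha =>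
    Function.Iterate.rec (· ∈ A) ha h j
  rw [wr, Matrix.det_apply']
  exact sum_mem fun σ _ => mul_mem (intCast_mem A _) (prod_mem fun i _ => h1 _ _ (hf _))

omit [Algebra ℂ K] in
theorem ge_add (P : Place K) {n : ℤ} {x y : K} (hx : x = 0 ∨ n ≤ P.ord x)
    (hy : y = 0 ∨ n ≤ P.ord y) : x + y = 0 ∨ n ≤ P.ord (x + y) := by
  by_cases h1 : x = 0
  · rwa [h1, zero_add]
  by_cases h2 : y = 0
  · rwa [h2, add_zero]
  refine or_iff_not_imp_left.2 fun h3 => le_trans ?_ (Pl.min_ord_le_add P h1 h2 h3)
  exact le_min (hx.resolve_left h1) (hy.resolve_left h2)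

omit [Algebra ℂ K] in
theorem ge_mul (P : Place K) {n n' : ℤ} {x y : K} (hx : x = 0 ∨ n ≤ P.ord x)
    (hy : y = 0 ∨ n' ≤ P.ord y) : x * y = 0 ∨ n + n' ≤ P.ord (x * y) := by
  by_cases h1 : x = 0
  · exact Or.inl (by rw [h1, zero_mul])
  by_cases h2 : y = 0
  · exact Or.inl (by rw [h2, mul_zero])
  rw [Pl.ord_mul P h1 h2]
  exact Or.inr (add_le_add (hx.resolve_left h1) (hy.resolve_left h2))

theorem tan (X : Derivation ℂ K K) (f : Fin r → K) (P : Place K) (n : Fin r → ℤ)
    (h : ∀ a, a ≠ 0 → X a = 0 ∨ P.ord a ≤ P.ord (X a)) (hf : ∀ i, f i = 0 ∨ n i ≤ P.ord (f i)) :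
    wr X f = 0 ∨ ∑ i, n i ≤ P.ord (wr X f) := by
  have h1 : ∀ i j, (fun a => X a)^[j] (f i) = 0 ∨ n i ≤ P.ord ((fun a => X a)^[j] (f i)) :=
    fun i j => Function.Iterate.rec (fun a => a = 0 ∨ n i ≤ P.ord a) (hf i) (fun a ha => by
      by_cases h0 : a = 0
      · exact Or.inl (by rw [h0, map_zero])
      · exact (h a h0).imp_right (ha.resolve_left h0).trans) j
  have h2 : ∀ (s : Finset (Fin r)) (x : Fin r → K) (m : Fin r → ℤ),
      (∀ i, x i = 0 ∨ m i ≤ P.ord (x i)) → ∏ i ∈ s, x i = 0 ∨ ∑ i ∈ s, m i ≤ P.ord (∏ i ∈ s, x i) := by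
    intro s x m hx
    induction s using Finset.induction_on with
    | empty => simp
    | insert i s hi ih =>
      rw [prod_insert hi, sum_insert hi]
      exact ge_mul P (hx i) ih
  rw [wr, Matrix.det_apply]
  refine sum_induction _ (fun x => x = 0 ∨ ∑ i, n i ≤ P.ord x) (fun _ _ => ge_add P) (Or.inl rfl)
    fun σ _ => ?_
  have h3 := h2 univ (fun i => (fun a => X a)^[i] (f (σ i))) (fun i => n (σ i)) fun i => h1 _ _
  rw [Equiv.sum_comp σ n] at h3
  rcases Int.units_eq_one_or (Equiv.Perm.sign σ) with e | e <;> rw [e]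
  · rwa [one_smul]
  · rwa [Units.neg_smul, one_smul, neg_eq_zero, Pl.ord_neg]

theorem map (X : Derivation ℂ K K) (A : Subalgebra ℂ K) (f : Fin r → A) (L : Type) [Field L]
    [Algebra ℂ L] (D : Derivation ℂ L L) (φ : A →ₐ[ℂ] L)
    (h : ∀ a : A, ∃ h : X a ∈ A, φ ⟨X a, h⟩ = D (φ a)) :
    ∃ h : wr X (fun i => (f i : K)) ∈ A, φ ⟨_, h⟩ = wr D fun i => φ (f i) := by
  choose h1 h2 using h
  let Y : A → A := fun a => ⟨X a, h1 a⟩
  have s1 : Function.Semiconj A.val Y fun a => X a := fun _ => rfl
  have s2 : Function.Semiconj φ Y fun a => D a := h2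
  have e1 : A.val (Matrix.of fun i j : Fin r => Y^[j] (f i)).det = wr X fun i => (f i : K) := by
    rw [AlgHom.map_det, wr]
    congr 1
    ext i j
    exact s1.iterate_right j (f i)
  have e2 : φ (Matrix.of fun i j : Fin r => Y^[j] (f i)).det = wr D fun i => φ (f i) := by
    rw [AlgHom.map_det, wr]
    congr 1
    ext i j
    exact s2.iterate_right j (f i)
  exact ⟨e1 ▸ Subtype.prop _, (congrArg φ (Subtype.ext e1.symm)).trans e2⟩

end Wra

/-- The algebra of Wronskians. -/
theorem wra : WRA := fun _ _ _ =>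
  { smul := fun X g f => by simpa using Wra.smul_mul X g 1 f
    mul := fun X s f => by simpa using Wra.smul_mul X 1 s f
    lin := Wra.lin
    tri := Wra.tri
    ne := Wra.ne
    mem := Wra.mem
    tan := Wra.tan
    map := Wra.map }

end Vale.Agent.P297Y.En
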