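import Vale.Agent.P297Y.En.Sk1
import Mathlib.Algebra.Order.Group.Int.Sum
import Mathlib.LinearAlgebra.Vandermonde

/-! P297, positive irregularity: the order of a Wronskian at a point of a curve. -/

set_option linter.all false

namespace Vale.Agent.P297Y.En

open Vale.Agent.P019P P025H492

section gen

variable {k K : Type*} [Field k] [Field K] [Algebra k K] [CFF k K] {P : Plk k K}

/-- elements with pairwise different orders -/
theorem exists_ord_inj (P : Plk k K) (n₀ : ℤ) : ∀ (r : ℕ) (V : Submodule k K)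
    [FiniteDimensional k V], V ≤ Mge P n₀ → r ≤ Module.finrank k V →
    ∃ g : Fin r → K, (∀ i, g i ∈ V ∧ g i ≠ 0) ∧ Function.Injective fun i => ord P (g i) := by
  intro r
  induction r with
  | zero => exact fun V _ _ _ => ⟨Fin.elim0, fun i => i.elim0, fun i => i.elim0⟩
  | succ r ih =>
    intro V _ hV hr
    have hne : V ≠ ⊥ := by
      rintro rfl
      rw [finrank_bot] at hr
      omega
    obtain ⟨z₀, hz₀, hz₀0⟩ := Submodule.exists_mem_ne_zero_of_ne_bot hne
    obtain ⟨n, ⟨z, hz, hz0, hzn⟩, hmin⟩ := Int.exists_least_of_bdd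
      (P := fun n => ∃ z ∈ V, z ≠ 0 ∧ ord P z = n)
      ⟨n₀, by
        rintro n ⟨z, hz, hz0, rfl⟩
        exact (mem_Mge.1 (hV hz)).resolve_left hz0⟩ ⟨_, z₀, hz₀, hz₀0, rfl⟩
    have hle : V ≤ (V ⊓ Mge P (n + 1)) ⊔ Submodule.span k {z} := by
      intro w hw
      have hwn : w ∈ Mge P n := by
        by_cases h0 : w = 0
        · exact mem_Mge.2 (Or.inl h0)
        · exact mem_Mge.2 (Or.inr (hmin _ ⟨w, hw, h0, rfl⟩))
      obtain ⟨a, ha⟩ := exists_sub_mem hz0 hzn hwn
      have h1 : w = (w - a • z) + a • z := by abel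
      rw [h1]
      exact Submodule.add_mem_sup ⟨sub_mem hw (V.smul_mem a hz), ha⟩
        (Submodule.smul_mem _ a (Submodule.mem_span_singleton_self z))
    haveI : FiniteDimensional k (V ⊓ Mge P (n + 1) : Submodule k K) :=
      Submodule.finiteDimensional_of_le inf_le_left
    have h1 := Submodule.finrank_mono hle
    have h2 := Submodule.finrank_add_le_finrank_add_finrank (V ⊓ Mge P (n + 1))
      (Submodule.span k {z})
    rw [finrank_span_singleton hz0] at h2
    obtain ⟨g, hg, hgi⟩ := ih (V ⊓ Mge P (n + 1)) (inf_le_left.trans hV) (by omega)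
    have hgn : ∀ i, n + 1 ≤ ord P (g i) := fun i =>
      (mem_Mge.1 (hg i).1.2).resolve_left (hg i).2
    refine ⟨Fin.cons z g, fun i => ?_, fun i j hij => ?_⟩
    · refine Fin.cases ?_ (fun i => ?_) i
      · exact ⟨hz, hz0⟩
      · exact ⟨(hg i).1.1, (hg i).2⟩
    · revert hij
      refine Fin.cases ?_ (fun i => ?_) i <;> refine Fin.cases ?_ (fun j => ?_) j <;>
        simp only [Fin.cons_zero, Fin.cons_succ] <;> intro hij
      · trivial
      · have := hgn j
        omega
      · have := hgn i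
        omega
      · rw [hgi hij]

theorem ord_prod' {ι : Type*} (s : Finset ι) {g : ι → K} (hg : ∀ i, g i ≠ 0) :
    ord P (∏ i ∈ s, g i) = ∑ i ∈ s, ord P (g i) := by
  classical
  induction s using Finset.induction_on with
  | empty => simp [ord_one]
  | insert a s ha ih =>
    rw [Finset.prod_insert ha, Finset.sum_insert ha,
      ord_mul P (hg a) (Finset.prod_ne_zero_iff.2 fun i _ => hg i), ih]

theorem const_mem (P : Plk k K) (c : k) : algebraMap k K c ∈ Mge P 0 :=
  mem_Mge.2 (Or.inr (ord_const P c).ge)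

theorem prod_cong {ι : Type*} (s : Finset ι) {a : ι → K} {c : ι → k}
    (h : ∀ i, a i - algebraMap k K (c i) ∈ Mge P 1) :
    ∏ i ∈ s, a i - algebraMap k K (∏ i ∈ s, c i) ∈ Mge P 1 := by
  classical
  induction s using Finset.induction_on with
  | empty => simp
  | insert i s hi ih =>
    rw [Finset.prod_insert hi, Finset.prod_insert hi]
    have h1 : a i * ∏ j ∈ s, a j - algebraMap k K (c i * ∏ j ∈ s, c j) =
        a i * (∏ j ∈ s, a j - algebraMap k K (∏ j ∈ s, c j)) +
          (∏ j ∈ s, c j) • (a i - algebraMap k K (c i)) := by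
      rw [map_mul, Algebra.smul_def]
      ring
    rw [h1]
    exact add_mem (mul_mem_of_mem (mem_Mge.2 (Or.inr (ord_nonneg_of_sub (h i)))) ih)
      (Submodule.smul_mem _ _ (h i))

theorem det_cong {r : ℕ} {A : Matrix (Fin r) (Fin r) K} {c : Matrix (Fin r) (Fin r) k}
    (h : ∀ i j, A i j - algebraMap k K (c i j) ∈ Mge P 1) :
    A.det - algebraMap k K c.det ∈ Mge P 1 := by
  rw [Matrix.det_apply', Matrix.det_apply', map_sum, ← Finset.sum_sub_distrib]
  refine Submodule.sum_mem _ fun σ _ => ?_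
  have h1 := prod_cong (P := P) Finset.univ (a := fun i => A (σ i) i) (c := fun i => c (σ i) i)
    fun i => h _ _
  rw [map_mul, map_intCast, ← mul_sub]
  refine mul_mem_of_mem ?_ h1
  rw [← map_intCast (algebraMap k K)]
  exact const_mem P _

variable [CharZero k]

/-- the logarithmic derivation at a place -/
theorem theta_mem {D : Derivation k K K} (hD : D ≠ 0) {s : K} (hs0 : s ≠ 0) (hs : ord P s = 1)
    {n : ℤ} {z : K} (hz : z ∈ Mge P n) :
    ((s / D s) • D) z - (n : K) * z ∈ Mge P (n + 1) := by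
  have hDs : D s ≠ 0 := D_ne_zero hD (P := P) (by omega)
  have hsn : s ^ n ≠ 0 := zpow_ne_zero _ hs0
  obtain ⟨u, rfl⟩ : ∃ u, z = s ^ n * u := ⟨(s ^ n)⁻¹ * z, by field_simp⟩
  rw [mul_mem_Mge_iff hsn, ord_zpow, hs, mul_one, sub_self] at hz
  have hu : 0 ≤ ord P u := by
    rcases mem_Mge.1 hz with h | h
    · rw [h, ord_zero]
    · exact h
  have h1 : D u ∈ Mge P (ord P (D s)) := by
    rw [← ordD_eq hD hs]
    exact D_mem hD hu
  have h2 : ((s / D s) • D) (s ^ n * u) - (n : K) * (s ^ n * u) =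
      s ^ (n + 1) * ((D s)⁻¹ * D u) := by
    rw [Derivation.smul_apply, Derivation.leibniz, Derivation.leibniz_zpow, smul_eq_mul,
      smul_eq_mul, smul_eq_mul, smul_eq_mul, zsmul_eq_mul, zpow_add_one₀ hs0, zpow_sub_one₀ hs0]
    field_simp
    ring
  rw [h2, mul_mem_Mge_iff (zpow_ne_zero _ hs0), mul_mem_Mge_iff (inv_ne_zero hDs), ord_zpow, hs,
    ord_inv]
  simpa using h1

theorem theta_iter {D : Derivation k K K} (hD : D ≠ 0) {s : K} (hs0 : s ≠ 0) (hs : ord P s = 1)
    {n : ℤ} {z : K} (hz : z ∈ Mge P n) (j : ℕ) :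
    (fun a => ((s / D s) • D) a)^[j] z - algebraMap k K ((n : k) ^ j) * z ∈ Mge P (n + 1) := by
  induction j with
  | zero => simp
  | succ j ih =>
    rw [Function.iterate_succ_apply']
    set w := (fun a => ((s / D s) • D) a)^[j] z - algebraMap k K ((n : k) ^ j) * z with hw
    have h1 : (fun a => ((s / D s) • D) a)^[j] z = w + (n : k) ^ j • z := by
      rw [hw, Algebra.smul_def]
      ring
    have h2 := theta_mem hD hs0 hs ih
    have h3 := theta_mem hD hs0 hs hz
    have h4 : ((s / D s) • D) ((fun a => ((s / D s) • D) a)^[j] z) -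
        algebraMap k K ((n : k) ^ (j + 1)) * z =
        (((s / D s) • D) w - ((n + 1 : ℤ) : K) * w) + ((n + 1 : ℤ) : k) • w +
          (n : k) ^ j • (((s / D s) • D) z - (n : K) * z) := by
      rw [h1, map_add, Derivation.map_smul, Algebra.smul_def, Algebra.smul_def, Algebra.smul_def,
        pow_succ, map_mul, map_intCast, map_intCast]
      ring
    rw [h4]
    exact add_mem (add_mem (Mge_mono P (by omega) h2) (Submodule.smul_mem _ _ ih))
      (Submodule.smul_mem _ _ h3)

end gen

theorem sum_le_of_inj {r : ℕ} {e : Fin r → ℤ} {d : ℤ} (he : Function.Injective e)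
    (hd : ∀ i, e i ≤ d) : ∑ i, e i ≤ r * d - r.choose 2 := by
  classical
  have h1 := Finset.sum_le_sum_range (s := Finset.univ.image e) (c := d) (by
    intro x hx
    obtain ⟨i, -, rfl⟩ := Finset.mem_image.1 hx
    exact hd i)
  rw [Finset.sum_image fun a _ b _ h => he h, Finset.card_image_of_injective _ he,
    Finset.card_univ, Fintype.card_fin, Finset.sum_sub_distrib, Finset.sum_const,
    Finset.card_range, nsmul_eq_mul, ← Nat.cast_sum, Finset.sum_range_id] at h1
  rw [Nat.choose_two_right]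
  exact h1

/-- the Wronskian for the logarithmic derivation of elements with different orders -/
theorem ord_wr_theta {L : Type} [Field L] [Algebra ℂ L] [CFF ℂ L] {y : Plk ℂ L}
    {D : Derivation ℂ L L} (hD : D ≠ 0) {s : L} (hs0 : s ≠ 0) (hs : ord y s = 1) {r : ℕ}
    {g : Fin r → L} (hg : ∀ i, g i ≠ 0) (hi : Function.Injective fun i => ord y (g i)) :
    wr ((s / D s) • D) g ≠ 0 ∧ ord y (wr ((s / D s) • D) g) = ∑ i, ord y (g i) := by
  set N : Matrix (Fin r) (Fin r) L :=
    Matrix.of fun i j => (g i)⁻¹ * (fun a => ((s / D s) • D) a)^[j] (g i) with hN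
  have h1 : wr ((s / D s) • D) g = (∏ i, g i) * N.det := by
    rw [← Matrix.det_mul_column]
    unfold wr
    congr 1
    ext i j
    rw [Matrix.of_apply, Matrix.of_apply, hN, Matrix.of_apply, mul_inv_cancel_left₀ (hg i)]
  set c : Matrix (Fin r) (Fin r) ℂ := Matrix.vandermonde fun i => ((ord y (g i) : ℤ) : ℂ) with hc
  have h2 : N.det - algebraMap ℂ L c.det ∈ Mge y 1 := by
    refine det_cong fun i j => ?_
    have h3 := theta_iter hD hs0 hs (mem_Mge.2 (Or.inr (le_refl (ord y (g i))))) (j : ℕ)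
    have h4 : N i j - algebraMap ℂ L (c i j) = (g i)⁻¹ *
        ((fun a => ((s / D s) • D) a)^[j] (g i) -
          algebraMap ℂ L (((ord y (g i) : ℤ) : ℂ) ^ (j : ℕ)) * g i) := by
      rw [hN, hc, Matrix.of_apply, Matrix.vandermonde_apply, mul_sub, mul_left_comm,
        inv_mul_cancel₀ (hg i), mul_one]
    rw [h4, mul_mem_Mge_iff (inv_ne_zero (hg i)), ord_inv]
    refine Mge_mono y (le_of_eq ?_) h3
    ring
  have h3 : c.det ≠ 0 := Matrix.det_vandermonde_ne_zero_iff.2 fun i j hij =>
    hi (Int.cast_injective hij)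
  have h4 := ord_add_of_lt (P := y) (z := algebraMap ℂ L c.det)
    (w := N.det - algebraMap ℂ L c.det) (by simpa using h3) (by rwa [ord_const, zero_add])
  rw [add_sub_cancel, ord_const] at h4
  have h5 : ∏ i, g i ≠ 0 := Finset.prod_ne_zero_iff.2 fun i _ => hg i
  rw [h1]
  refine ⟨mul_ne_zero h5 h4.1, ?_⟩
  rw [ord_mul y h5 h4.1, h4.2, add_zero, ord_prod' _ hg]

theorem wrc : WRA → WRC := by
  intro hA L _ _ _ D y a r f d ha hDa hoa hf hd
  have hD : D ≠ 0 := by
    rintro rfl
    exact hDa rfl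
  obtain ⟨s, hs0, hs⟩ := exists_unif y
  have hDs : D s ≠ 0 := D_ne_zero hD (P := y) (by omega)
  have hos : ord y (D s) ≤ 0 := by
    have h1 := (mem_Mge.1 (D_mem hD ha)).resolve_left hDa
    rw [ordD_eq hD hs] at h1
    omega
  obtain ⟨n₀, hn₀⟩ := exists_mem_Mge_fin y f
  haveI : FiniteDimensional ℂ (Submodule.span ℂ (Set.range f)) :=
    FiniteDimensional.span_of_finite ℂ (Set.finite_range f)
  obtain ⟨g, hg, hgi⟩ := exists_ord_inj y n₀ r (Submodule.span ℂ (Set.range f))
    (Submodule.span_le.2 (by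
      rintro _ ⟨i, rfl⟩
      exact hn₀ i)) (by rw [finrank_span_eq_card hf, Fintype.card_fin])
  choose c hc using fun i => (Submodule.mem_span_range_iff_exists_fun ℂ).1 (hg i).1
  obtain ⟨h1, h2⟩ := ord_wr_theta hD hs0 hs (fun i => (hg i).2) hgi
  have h3 := (hA L).lin ((s / D s) • D) ((algebraMap ℂ L).mapMatrix (Matrix.of c)) f
    fun i j => Derivation.map_algebraMap _ _
  have h4 : (fun i => ∑ j, (algebraMap ℂ L).mapMatrix (Matrix.of c) i j * f j) = g := by
    funext i
    rw [← hc i]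
    refine Finset.sum_congr rfl fun j _ => ?_
    rw [Algebra.smul_def]
    rfl
  rw [h4, ← RingHom.map_det, (hA L).smul D (s / D s) f] at h3
  rw [h3] at h1 h2
  have h5 := left_ne_zero_of_mul h1
  have h6 := left_ne_zero_of_mul (right_ne_zero_of_mul h1)
  have h7 := right_ne_zero_of_mul (right_ne_zero_of_mul h1)
  refine ⟨h7, ?_⟩
  rw [ord_mul y h5 (right_ne_zero_of_mul h1), ord_const, zero_add, ord_mul y h6 h7, ord_pow,
    div_eq_mul_inv, ord_mul y hs0 (inv_ne_zero hDs), hs, ord_inv] at h2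
  have h8 := sum_le_of_inj hgi fun i => hd _ (hg i).1
  have h9 : (2 : ℤ) * (r.choose 2 : ℕ) = r * (r - 1) := by
    have h10 : ((r.choose 2 : ℕ) : ℚ) = r * (r - 1) / 2 := Nat.cast_choose_two ℚ r
    have h11 : (2 : ℚ) * (r.choose 2 : ℕ) = r * (r - 1) := by rw [h10]; ring
    exact_mod_cast h11
  have h10 : (0 : ℤ) ≤ (r.choose 2 : ℕ) * -ord y (D s) :=
    mul_nonneg (Nat.cast_nonneg _) (by omega)
  nlinarith

end Vale.Agent.P297Y.En
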