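import Vale.Agent.P297Y.En.Sk2

/-! P297, positive irregularity, the end of the proof: the reduced fibres, the identity of Hermite
and the decomposition of the Wronskian divisors. -/

set_option linter.all false

namespace Vale.Agent.P297Z.Sf

open Vale.Agent.P019P (CFF Plk LL Mge gen dg dv prn)
open Vale.Agent.P297Y.En (wr)

variable {K : Type} [Field K] [Algebra ℂ K]

namespace En

namespace WrnH

theorem hermite (M : ℕ) (hM : 0 < M) (n : ℤ) :
    ∑ j ∈ Finset.range M, (n - j) / (M : ℤ) = n - M + 1 := by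
  have h0 : (M : ℤ) ≠ 0 := by exact_mod_cast hM.ne'
  have step : ∀ n : ℤ, ∑ j ∈ Finset.range M, (n + 1 - j) / (M : ℤ) =
      ∑ j ∈ Finset.range M, (n - j) / (M : ℤ) + 1 := fun n => by
    have h1 := Finset.sum_range_succ (fun j : ℕ => (n + 1 - j) / (M : ℤ)) M
    rw [Finset.sum_range_succ'] at h1
    have h2 : (n + 1 - M) / (M : ℤ) = (n + 1) / M - 1 := by
      rw [show n + 1 - M = n + 1 + (-1) * M by ring, Int.add_mul_ediv_right _ _ h0]
      ring
    have h3 : ∑ j ∈ Finset.range M, (n + 1 - ((j + 1 : ℕ) : ℤ)) / (M : ℤ) =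
        ∑ j ∈ Finset.range M, (n - j) / (M : ℤ) :=
      Finset.sum_congr rfl fun j _ => by push_cast; ring_nf
    rw [h2, h3, Nat.cast_zero, sub_zero] at h1
    omega
  have key : ∀ k : ℤ, ∑ j ∈ Finset.range M, ((M : ℤ) - 1 + k - j) / (M : ℤ) = k := fun k => by
    induction k using Int.induction_on with
    | zero =>
      refine Finset.sum_eq_zero fun j hj => ?_
      have := Finset.mem_range.1 hj
      exact Int.ediv_eq_zero_of_lt (by omega) (by omega)
    | succ k ih => rw [← add_assoc, step, ih]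
    | pred k ih =>
      have := step ((M : ℤ) - 1 + (-k - 1))
      rw [show (M : ℤ) - 1 + (-k - 1) + 1 = M - 1 + -k by ring, ih] at this
      omega
  have := key (n - M + 1)
  rwa [show (M : ℤ) - 1 + (n - M + 1) = n by ring] at this

theorem gauss (M : ℕ) : 2 * ∑ j ∈ Finset.range M, (j : ℤ) = M * (M - 1) := by
  induction M with
  | zero => simp
  | succ M ih => rw [Finset.sum_range_succ, mul_add, ih]; push_cast; ring

variable {S : Surf K} (P : Pen S)

/-- The reduced fibre. -/
noncomputable def R (p : Plk ℂ P.k) : Div S.W :=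
  open Classical in toDiv fun C => if P.Over C p then 1 else 0

variable {P}

open Classical in
theorem R_apply (hB : P.Bas) (p : Plk ℂ P.k) (C : Crv S.W) :
    R P p C = if P.Over C p then 1 else 0 := by
  refine toDiv_apply ((P.fib p).support.finite_toSet.subset fun C hC => ?_) C
  have h : P.Over C p := by
    by_contra hc
    exact hC (if_neg hc)
  exact Finsupp.mem_support_iff.2 (hB.fib_pos C p h).ne'

theorem red_ext (hB : P.Bas) {j : Plk ℂ P.k →₀ ℤ} {V V' : Div S.W} (h : P.IsRed j V)
    (h' : P.IsRed j V') : V = V' := by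
  ext C
  rcases hB.dich C with h1 | ⟨p, h1⟩
  · rw [h.hor C h1, h'.hor C h1]
  · rw [h.ov C p h1, h'.ov C p h1]

variable (P) in
/-- The multiples of the reduced fibres. -/
noncomputable def Φ : (Plk ℂ P.k →₀ ℤ) →+ Div S.W :=
  Finsupp.liftAddHom fun p => zmultiplesHom _ (R P p)

theorem Φ_single (p : Plk ℂ P.k) (n : ℤ) : Φ P (Finsupp.single p n) = n • R P p := by
  simp [Φ]

theorem red_Φ (hB : P.Bas) (j : Plk ℂ P.k →₀ ℤ) : P.IsRed j (Φ P j) := by
  classical
  induction j using Finsupp.induction_linear with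
  | zero => exact ⟨fun C _ => by simp, fun C p _ => by simp⟩
  | add j j' h h' =>
    exact ⟨fun C hC => by rw [map_add, Finsupp.add_apply, h.hor C hC, h'.hor C hC, add_zero],
      fun C p hC => by rw [map_add, Finsupp.add_apply, h.ov C p hC, h'.ov C p hC,
        Finsupp.add_apply]⟩
  | single q n =>
    refine ⟨fun C hC => ?_, fun C p hC => ?_⟩
    · rw [Φ_single, Finsupp.smul_apply, R_apply hB, if_neg fun h => hB.not_hor C q h hC,
        smul_zero]
    · rw [Φ_single, Finsupp.smul_apply, R_apply hB, Finsupp.single_apply]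
      by_cases e : q = p
      · rw [if_pos e, if_pos (e ▸ hC), smul_eq_mul, mul_one]
      · rw [if_neg e, if_neg fun h => e (hB.uniq C q p h hC), smul_zero]

theorem sum_eq {α : Type} (z : α →₀ ℤ) (ρ : α → ℤ) {T : Finset α} (h : ∀ p, p ∉ T → z p = 0) :
    z.sum (fun p n => n * ρ p) = ∑ p ∈ T, z p * ρ p :=
  Finsupp.sum_of_support_subset z (fun p hp => by
    by_contra hc
    exact Finsupp.mem_support_iff.1 hp (h p hc)) _ fun _ _ => zero_mul _

theorem exists_basis {k V : Type} [Field k] [AddCommGroup V] [Module k V] (U : Submodule k V)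
    (N : ℤ) (h : ∀ (r : ℕ) (e : Fin r → V), LinearIndependent k e → (∀ i, e i ∈ U) → r ≤ N) :
    ∃ (r : ℕ) (e : Fin r → V), LinearIndependent k e ∧ (∀ i, e i ∈ U) ∧
      U ≤ Submodule.span k (Set.range e) := by
  by_contra hc
  push Not at hc
  have key : ∀ r : ℕ, ∃ e : Fin r → V, LinearIndependent k e ∧ ∀ i, e i ∈ U := fun r => by
    induction r with
    | zero => exact ⟨Fin.elim0, linearIndependent_empty_type, fun i => i.elim0⟩
    | succ r ih =>
      obtain ⟨e, h1, h2⟩ := ih
      obtain ⟨v, h3, h4⟩ := SetLike.not_le_iff_exists.1 (hc r e h1 h2)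
      exact ⟨Fin.cons v e, linearIndependent_finCons.2 ⟨h1, h4⟩, fun i => Fin.cases h3 h2 i⟩
  obtain ⟨e, h1, h2⟩ := key (N.toNat + 1)
  have := h _ e h1 h2
  omega

end WrnH

open WrnH

/-- The identity of Hermite. -/
theorem herm : HERM := fun r n m hm => by
  obtain ⟨M, rfl⟩ := Int.eq_ofNat_of_zero_le hm.le
  have hM : 0 < M := by exact_mod_cast hm
  obtain ⟨j, hj, h⟩ := Finset.exists_le_of_sum_le (s := Finset.range M)
    (Finset.nonempty_range_iff.2 hM.ne')
    (f := fun j : ℕ => 2 * ((M : ℤ) * ∑ i, (n i - j) / (M : ℤ) + r * j))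
    (g := fun _ => 2 * ∑ i, n i - r * ((M : ℤ) - 1)) (by
      have h1 := gauss M
      rw [← Finset.mul_sum, Finset.sum_add_distrib, ← Finset.mul_sum, ← Finset.mul_sum,
        Finset.sum_comm, Finset.sum_congr rfl fun i _ => hermite M hM (n i), Finset.sum_const,
        Finset.card_range, Finset.sum_add_distrib, Finset.sum_sub_distrib, Finset.sum_const,
        Finset.sum_const, Finset.card_univ, Fintype.card_fin]
      simp only [nsmul_eq_mul]
      exact le_of_eq (by linear_combination (r : ℤ) * h1))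
  exact ⟨j, Int.natCast_nonneg _, by exact_mod_cast Finset.mem_range.1 hj, h⟩

/-- The multiples of the reduced fibres. -/
theorem red : RED := fun K _ _ S h P X M m hz => by
  have hB := h.bas P
  have hN := h.num P
  have h1 : ∀ p, m p • R P p = P.fib p := fun p => by
    classical
    ext C
    rw [Finsupp.smul_apply, R_apply hB]
    split_ifs with e
    · rw [hz.fib_over C p e, smul_eq_mul, mul_one]
    · rw [hB.fib_zero C p e, smul_zero]
  have h2 : ∀ p Y, m p * S.B (R P p) Y = S.B P.F Y := fun p Y => by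
    rw [← smul_eq_mul, ← AddMonoidHom.smul_apply, ← map_zsmul, h1]
    exact hN.num_fib p Y
  have h3 : ∀ p, m p * inter S.H (R P p) = inter S.H P.F := fun p => by
    rw [inter_comm, inter_comm S.H]
    exact h2 p S.H
  refine ⟨fun j => ⟨_, red_Φ hB j⟩, fun p => inter S.H (R P p), fun p => ?_, h3, fun j V hV => ?_⟩
  · exact (mul_pos_iff_of_pos_left (hz.m_pos p)).1 (h3 p ▸ hN.F_pos)
  rw [red_ext hB hV (red_Φ hB j)]
  clear hV
  induction j using Finsupp.induction_linear with
  | zero =>
    simp only [← S.B_apply, map_zero, AddMonoidHom.zero_apply, mul_zero, zero_mul]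
    exact ⟨rfl, fun _ => trivial⟩
  | add j j' e e' =>
    refine ⟨?_, fun Y => ?_⟩
    · rw [Finsupp.sum_add_index' (fun _ => zero_mul _) fun _ _ _ => add_mul _ _ _, ← e.1, ← e'.1]
      simp only [← S.B_apply, map_add]
    · have a1 := e.2 Y
      have a2 := e'.2 Y
      simp only [← S.B_apply, map_add, AddMonoidHom.add_apply] at a1 a2 ⊢
      linear_combination a1 + a2
  | single p n =>
    refine ⟨?_, fun Y => ?_⟩
    · rw [Finsupp.sum_single_index (zero_mul _), Φ_single]
      simp only [← S.B_apply, map_zsmul, smul_eq_mul]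
    · have a1 := h2 p Y
      have a2 := h3 p
      rw [Φ_single]
      simp only [← S.B_apply, map_zsmul, AddMonoidHom.smul_apply, smul_eq_mul] at a2 ⊢
      linear_combination (-n * S.B (R P p) Y) * a2 + n * S.B S.H (R P p) * a1

/-- The Wronskian divisors. -/
theorem wrn (red : RED) (herm : HERM) (wr1 : WR1) (wr2 : WR2) (wr3 : WR3) : WRN := by
  classical
  intro K _ _ S h P X M m hz A hA
  have hB := h.bas P
  have hN := h.num P
  have h0 : 0 ≤ inter S.kap P.F := by
    refine Rul.nef_eff S.all hz.nef fun C => ?_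
    by_cases hC : P.Over C (P019P.nonempty_Plk ℂ P.k).some
    · exact (hB.fib_pos C _ hC).le
    · exact (hB.fib_zero C _ hC).ge
  have hd : 0 ≤ inter P.F A := h0.trans hA.le
  obtain ⟨r, e, he, hs, hsp⟩ := exists_basis (P.sec A) (inter P.F A) fun r e h1 h2 => by
    have := (wr2 K S h P X hz.tg A r e h1 h2 hA hd).1
    omega
  obtain ⟨w0, w1, n, hn, w2⟩ := wr1 K S h P X hz.tg A r e he hs
  obtain ⟨w3, w4⟩ := wr2 K S h P X hz.tg A r e he hs hA hd
  obtain ⟨r1, ρ, r2, r3, r4⟩ := red K S h P X M m hz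
  choose j j1 j2 j3 using fun p => herm r (fun i => n i p) (m p) (hz.m_pos p)
  let T : Finset (Plk ℂ P.k) := hz.m_fin.toFinset ∪ Finset.univ.biUnion fun i => (n i).support
  have t1 : ∀ p, p ∉ T → m p = 1 := fun p hp => by
    by_contra hc
    exact hp (Finset.mem_union_left _ (hz.m_fin.mem_toFinset.2 hc))
  have t2 : ∀ p, p ∉ T → ∀ i, n i p = 0 := fun p hp i => by
    by_contra hc
    exact hp (Finset.mem_union_right _ (Finset.mem_biUnion.2
      ⟨i, Finset.mem_univ _, Finsupp.mem_support_iff.2 hc⟩))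
  have t3 : ∀ p, p ∉ T → j p = 0 := fun p hp => by
    have := j1 p
    have := j2 p
    have := t1 p hp
    omega
  let j' : Plk ℂ P.k →₀ ℤ := Finsupp.onFinset T j fun p hp => by
    by_contra hc
    exact hp (t3 p hc)
  let a : Fin r → Plk ℂ P.k →₀ ℤ := fun i => Finsupp.onFinset T (fun p => (n i p - j p) / m p)
    fun p hp => by
      by_contra hc
      exact hp (by simp [t2 p hc, t3 p hc])
  let μ : Plk ℂ P.k →₀ ℤ := Finsupp.onFinset T (fun p => m p - 1) fun p hp => by
    by_contra hc
    exact hp (by simp [t1 p hc])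
  obtain ⟨J, hJ⟩ := r1 j'
  obtain ⟨V, hV⟩ := r1 (∑ i, n i)
  have hM : P.IsRed μ M := ⟨hz.M_hor, hz.M_over⟩
  obtain ⟨w5, w6⟩ := wr3 K S h P X M m hz A r e he hsp hA n hn j' J hJ a fun _ _ => rfl
  have hr : 2 * (r : ℤ) = 2 * inter P.F A - inter S.kap P.F := le_antisymm w3 w5
  refine ⟨r, (S.W0 X A e).filter P.Hor, S.W0 X A e - (S.W0 X A e).filter P.Hor - V, V, hr,
    fun C => ?_, fun C hC => ?_, fun C => ?_, fun C hC => ?_, (r4 _ V hV).2, fun Y => ?_, ?_,
    fun C => ?_⟩
  · rw [Finsupp.filter_apply]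
    split_ifs with hC
    · exact w1 C hC
    · exact le_rfl
  · by_contra hc
    exact hC (Finsupp.filter_apply_neg _ _ hc)
  · rw [Finsupp.sub_apply, Finsupp.sub_apply, Finsupp.zero_apply]
    rcases hB.dich C with hC | ⟨p, hC⟩
    · rw [Finsupp.filter_apply_pos _ _ hC, hV.hor C hC, sub_self, sub_zero]
    · rw [Finsupp.filter_apply_neg _ _ (hB.not_hor C p hC), hV.ov C p hC, sub_zero,
        Finsupp.finset_sum_apply]
      exact sub_nonneg.2 (w2 C p hC)
  · rw [Finsupp.sub_apply, Finsupp.sub_apply, Finsupp.filter_apply_pos _ _ hC, hV.hor C hC,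
      sub_self, sub_zero]
  · have a1 := inter_lin S.all.toRR ((r : ℤ) • A + (r.choose 2 : ℤ) • S.vd X) Y w0
    rw [add_comm, ← add_assoc] at a1
    change inter (S.W0 X A e) Y = _ at a1
    simp only [← S.B_apply, map_sub, map_add, map_zsmul, AddMonoidHom.sub_apply,
      AddMonoidHom.add_apply, AddMonoidHom.smul_apply, smul_eq_mul] at a1 ⊢
    linear_combination a1
  · have a1 := w6 hr
    have a2 := S.all.toRR.rr (A - J)
    have a3 := S.all.toRR.rr A
    have a4 := (r4 _ J hJ).2 A
    have a5 := (r4 _ J hJ).2 J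
    have a6 := (r4 _ J hJ).2 S.kap
    have a7 := hN.F_vert' J hJ.hor
    have a8 := inter_comm A J
    have a9 := inter_comm S.kap J
    have a10 := inter_comm S.kap P.F
    have b1 : 2 * inter S.H P.F * chi (A - J) =
        2 * inter S.H P.F * chi A - 2 * r * inter S.H J := by
      simp only [← S.B_apply, map_sub, AddMonoidHom.sub_apply] at a2 a3 a4 a5 a6 a7 a8 a9 a10 hr ⊢
      rw [a7, mul_zero] at a5
      linear_combination S.B S.H P.F * (a2 - a3 - a8 + a9) - 2 * a4 + a5 + a6 +
        S.B S.H J * (hr - a10)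
    have b2 : ∑ i, dg (a i) = ∑ p ∈ T, ∑ i, (n i p - j p) / m p := by
      rw [Finset.sum_comm]
      exact Finset.sum_congr rfl fun i _ => P019P.dg_eq_sum fun p hp => by
        simp [a, t2 p hp, t3 p hp]
    have b3 : inter S.H J = ∑ p ∈ T, j p * ρ p := (r4 _ J hJ).1.trans (sum_eq j' ρ t3)
    have b4 : inter S.H M = ∑ p ∈ T, (m p - 1) * ρ p :=
      (r4 _ M hM).1.trans (sum_eq μ ρ fun p hp => by simp [μ, t1 p hp])
    have b5 : inter S.H V = ∑ p ∈ T, (∑ i, n i p) * ρ p := by
      rw [(r4 _ V hV).1, sum_eq _ ρ (T := T) fun p hp => by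
        simp [Finsupp.finset_sum_apply, t2 p hp]]
      simp only [Finsupp.finset_sum_apply]
    have b6 : 2 * inter S.H P.F * ∑ i, dg (a i) + 2 * r * inter S.H J + r * inter S.H M ≤
        2 * inter S.H V := by
      rw [b2, b3, b4, b5]
      simp only [Finset.mul_sum T, ← Finset.sum_add_distrib]
      refine Finset.sum_le_sum fun p _ => ?_
      have c1 := mul_le_mul_of_nonneg_right (j3 p) (r2 p).le
      rw [← r3 p]
      linarith
    have b7 := mul_le_mul_of_nonneg_left a1 (mul_nonneg zero_le_two hN.F_pos.le)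
    linarith
  · rw [Finsupp.filter_apply]
    split_ifs with hC
    · exact w4 C hC
    · exact mul_nonneg (Int.natCast_nonneg _) (by omega)

end En

end Vale.Agent.P297Z.Sf
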