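import Vale.Agent.P297Y.En.Sk2
import Vale.Agent.P297Y.An.Par

/-! P297, positive irregularity, the end of the proof: the numerical situation and the canonical
class of an elliptic fibration. -/

namespace Vale.Agent.P297Z.Sf.En

open Vale.Agent.P019P (CFF Plk LL gen dg dv can)
open P025H492 (wdv)

variable {K : Type} [Field K] [Algebra ℂ K] {S : Surf K}

namespace ZrA

theorem mem_of_at {P : Crv S.W → Prop} {D : Div S.W} {f : K} (h : ∀ C, P C → f ∈ secAt C D) :
    f ∈ secOn P D := by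
  by_cases h0 : f = 0
  · exact Or.inl h0
  · exact Or.inr fun C hC => (mem_secAt.1 (h C hC)).resolve_left h0

/-- the logarithmic derivative of a local equation -/
theorem log_mem (h : S.Dr) {X : Derivation ℂ K K} (hX : X ≠ 0) {C : Crv S.W} {t : K} (ht : t ≠ 0)
    {D : Div S.W} (h0 : 0 ≤ D C) (hD : C.ord t = D C) : X t / t ∈ secAt C (S.vd X + D) := by
  have h1 : X t ∈ secAt C (S.vd X) := by
    by_cases e : X t = 0
    · exact Or.inl e
    · have := (h.vd_least X hX C).2 ⟨t, (Pl.ord_nonneg_iff C.pl ht).1 (h0.trans_eq hD.symm), e, rfl⟩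
      exact mem_secAt.2 (Or.inr (by unfold Crv.ord; omega))
  have h2 : t⁻¹ ∈ secAt C D :=
    mem_secAt.2 (Or.inr (by rw [← hD]; unfold Crv.ord; rw [Pl.ord_inv]; omega))
  rw [div_eq_mul_inv]
  exact mul_mem_secOn h1 h2

theorem vert_of {P : Pen S} (hN : P.Num) {Z : Div S.W} (hZ : 0 ≤ Z) (h : inter P.F Z = 0)
    (C : Crv S.W) (hC : P.Hor C) : Z C = 0 := by
  have h1 : 0 ≤ Z - Z C • C.cl := fun C' => by
    by_cases e : C' = C
    · subst e
      simp
    · simpa [Finsupp.single_eq_of_ne e] using hZ C'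
  have h2 := Rul.nef_eff S.all hN.F_nef h1
  rw [← S.B_apply, map_sub, map_zsmul, S.B_apply, S.B_apply, h, smul_eq_mul] at h2
  have h3 := hN.F_hor C hC
  have h4 : 0 ≤ Z C := hZ C
  nlinarith

theorem const_mem {C : Crv S.W} {D : Div S.W} (h : D C = 0) (c : ℂ) :
    algebraMap ℂ K c ∈ secAt C D :=
  mem_secAt.2 (Or.inr (by rw [C.ord_const, h, add_zero]))

theorem const_zero {C : Crv S.W} {D : Div S.W} (h : D C < 0) {c : ℂ}
    (hc : algebraMap ℂ K c ∈ secAt C D) : c = 0 := by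
  rcases mem_secAt.1 hc with e | e
  · simpa using e
  · rw [C.ord_const] at e
    omega

/-- the first cohomology of the ideal of two fibres does not vanish -/
theorem h1_pos (h : S.Api) (P : Pen S) {p q : Plk ℂ P.k} (hpq : p ≠ q) :
    1 ≤ S.h1 (-(P.fib p + P.fib q)) := by
  classical
  have hB := h.bas P
  have hD : ∀ C, (-(P.fib p + P.fib q)) C = -(P.fib p C + P.fib q C) := fun _ => rfl
  have h0 : ∀ r C, 0 ≤ P.fib r C := fun r C => by
    by_cases hC : P.Over C r
    exacts [(hB.fib_pos C r hC).le, (hB.fib_zero C r hC).ge]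
  let φ : ℂ →ₗ[ℂ] (Crv S.W → K) :=
    LinearMap.pi fun C => if P.Over C p then Algebra.linearMap ℂ K else 0
  have φ1 : ∀ c C, P.Over C p → φ c C = algebraMap ℂ K c := fun c C hC => by simp [φ, hC]
  have φ0 : ∀ c C, ¬ P.Over C p → φ c C = 0 := fun c C hC => by simp [φ, hC]
  have h1 := h.pple (-(P.fib p + P.fib q)) ℂ φ fun c => by
    refine ⟨(P.fib p).support.finite_toSet.subset fun C hC => ?_, fun x => ?_⟩
    · exact Finsupp.mem_support_iff.2 (hB.fib_pos C p (by_contra fun e => hC (φ0 c C e))).ne'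
    by_cases hx : P.π x = p
    · refine ⟨algebraMap ℂ K c, fun C hC => ?_⟩
      by_cases e : P.Over C p
      · rw [φ1 c C e, sub_self]
        exact zero_mem _
      · rw [φ0 c C e, sub_zero]
        refine const_mem ?_ c
        rw [hD, hB.fib_zero C p e, hB.fib_zero C q fun e' => hpq (hx.symm.trans
          (hB.pi_eq C q x e' hC)), add_zero, neg_zero]
    · refine ⟨0, fun C hC => ?_⟩
      rw [φ0 c C fun e => hx (hB.pi_eq C p x e hC), sub_zero]
      exact zero_mem _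
  have h2 : (S.Glob (-(P.fib p + P.fib q))).comap φ = ⊥ := by
    refine (Submodule.eq_bot_iff _).2 ?_
    rintro c ⟨g, hg⟩
    obtain ⟨c', rfl⟩ := S.all.const g (mem_of_at fun C _ => by
      have h3 : g - φ c C ∈ secAt C 0 := secOn_mono (fun C' e => ⟨e, by
        rw [hD]; linarith [h0 p C', h0 q C', Finsupp.zero_apply (M := ℤ) (a := C')]⟩) (hg C)
      have h4 : φ c C ∈ secAt C (0 : Div S.W) := by
        by_cases e : P.Over C p
        · exact φ1 c C e ▸ const_mem rfl c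
        · exact φ0 c C e ▸ zero_mem _
      simpa using add_mem h3 h4)
    obtain ⟨C, hC⟩ := hB.ex_crv p
    obtain ⟨C', hC'⟩ := hB.ex_crv q
    have h3 := hg C
    have h4 := hg C'
    rw [φ1 c C hC, ← map_sub] at h3
    rw [φ0 c C' fun e => hpq (hB.uniq C' p q e hC'), sub_zero] at h4
    have h5 := const_zero (by rw [hD]; linarith [hB.fib_pos C p hC, h0 q C]) h3
    rw [const_zero (by rw [hD]; linarith [hB.fib_pos C' q hC', h0 p C']) h4] at h5
    simpa using h5
  rw [h2, finrank_bot, Module.finrank_self] at h1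
  simpa using h1

end ZrA

open ZrA

theorem logh : LOGH := by
  intro K _ _ S h P X hT C hC
  obtain ⟨t, t0, t1⟩ := Pl.exists_ord_eq_one C.pl
  have hτ : S.vd X C = C.ord (t ^ S.vd X C) := by
    unfold Crv.ord
    rw [Pl.ord_zpow, t1, mul_one]
  obtain ⟨a1, a2⟩ := hT.transv C hC _ (zpow_ne_zero _ t0) hτ t (by unfold Crv.ord; omega)
  have a3 : X t ≠ 0 := right_ne_zero_of_mul a1
  refine h.cs.neg C _ (X t / t) (div_ne_zero a3 t0) ?_ fun x hx => ?_
  · unfold Crv.ord at *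
    rw [Pl.ord_mul _ (zpow_ne_zero _ t0) a3] at a2
    rw [Pl.ord_div _ a3 t0, Finsupp.add_apply, Finsupp.single_eq_same]
    omega
  obtain ⟨s0, hs⟩ := S.eqn_spec x C.cl
  generalize S.eqn x C.cl = s at s0 hs
  have hs' : ∀ C', x.On C' → C'.ord s = C.cl C' := fun C' h' => by
    have := hs C' h'
    rw [Finsupp.neg_apply] at this
    omega
  refine ⟨X s / s, mem_of_at fun C' h' => log_mem h.dr hT.ne s0
    (Finsupp.single_nonneg.2 zero_le_one C') (hs' C' h'), ?_⟩
  have h1 := log_mem h.dr hT.ne (C := C) (D := 0) (div_ne_zero s0 t0) le_rfl (by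
    have := hs' C hx
    unfold Crv.ord at *
    rw [Pl.ord_div _ s0 t0, this, t1, Finsupp.single_eq_same, sub_self, Finsupp.zero_apply])
  rw [add_sub_cancel_right]
  rw [add_zero, X.leibniz_div] at h1
  convert h1 using 1
  simp only [smul_eq_mul]
  field_simp

theorem zr (hL : LOGH) : ZR := by
  intro K _ _ S h hD hR φ hφ
  have hB := h.bas φ.pen
  have hP := hD φ.pen
  have a0 : (φ.a : K) ≠ 0 := fun e => φ.a_ne (Subtype.ext e)
  have u0 : ∀ c : ℂ, (φ.u : K) ≠ algebraMap ℂ K c := fun c e => φ.u_nc c (Subtype.ext e)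
  have hT : φ.pen.Tg φ.X := ⟨(h.dr.ne _ _ _ a0 u0 φ.ham).1, hP.ker _ _ _ φ.pen_ham,
    hP.tang _ _ _ φ.pen_ham, hP.tang_ne _ _ _ φ.pen_ham, hP.transv _ _ _ φ.pen_ham⟩
  have h1 : (0 : Plk ℂ φ.k →₀ ℤ) = wdv ℂ φ.u + dv ℂ φ.a :=
    P019P.eq_of_le_of_dg_le ((P019P.mem_LL_dv φ.a_ne).1 (regb K S S.all φ.toFib).1) (by
      rw [map_add, P019P.dg_dv, P297Y.Crr.dg_wdv φ.u_nc, hφ.gen, map_zero]
      norm_num)
  have h1' : ∀ p : Plk ℂ φ.k, P019P.ord p φ.a + wdv ℂ φ.u p = 0 := fun p => by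
    rw [← P019P.dv_apply, add_comm, ← Finsupp.add_apply, ← h1, Finsupp.zero_apply]
  have h2 : ∀ C p, φ.pen.Over C p → φ.M C + 1 = φ.pen.fib p C := fun C p hC => by
    have h3 := hP.fd_over φ.a φ.u φ.a_ne φ.u_nc C p hC
    exact h3.trans ((congrArg (fun n => φ.pen.fib p C * (n + 1)) (h1' p)).trans (by ring))
  have hM : ∀ C, φ.pen.Hor C → φ.M C = 0 := hP.fd_hor φ.a φ.u φ.a_ne φ.u_nc
  choose c hc using hB.ex_crv
  have h3 : ∀ C p, φ.pen.Over C p → φ.pen.fib p C = φ.pen.fib p (c p) := fun C p hC => by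
    have h4 := h.zar φ.pen φ.M hM hφ.MM p C (c p) hC (hc p)
    rw [← h2 C p hC, ← h2 _ p (hc p)] at h4 ⊢
    linarith
  refine ⟨fun p => φ.pen.fib p (c p), hT, h.dr.vd_eq _ _ _ a0 u0 φ.ham, hφ.pg, hφ.nef, hφ.chi,
    hφ.gen, hφ.KK, hφ.KM, hφ.MM, fun p => hB.fib_pos _ p (hc p), ?_, h3, hM, fun C p hC => ?_,
    fun P' h' => hR φ P' hφ.pg h', hL K S h _ _ hT⟩
  · refine Set.Finite.of_injOn (f := c) (t := φ.M.support) (fun p hp => ?_)
      (fun p _ q _ e => hB.uniq _ p q (hc p) (e ▸ hc q)) φ.M.support.finite_toSet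
    exact Finsupp.mem_support_iff.2 fun e => hp (by rw [← h2 _ p (hc p), e, zero_add])
  · rw [← h3 C p hC, ← h2 C p hC, add_sub_cancel_right]

theorem g1a : G1A := by
  intro K _ _ S h P X M m hz hK
  have hA := S.all
  have hB := h.bas P
  have hN := h.num P
  obtain ⟨p⟩ := P019P.nonempty_Plk ℂ P.k
  obtain ⟨q, hq⟩ := P019P.exists_ne_place p
  have hf : ∀ r C, P.Hor C → P.fib r C = 0 := fun r C hC =>
    hB.fib_zero C r fun e => hB.not_hor C r e hC
  have hF : ∀ r, inter P.F (P.fib r) = 0 := fun r => hN.F_vert' _ (hf r)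
  have hFK : inter P.F S.kap = 0 := (inter_comm _ _).trans hK
  have hY : ∀ Y, inter (P.fib q + P.fib p) Y = 2 * inter P.F Y := fun Y => by
    rw [hA.add, hN.num_fib, hN.num_fib, two_mul]
  have hFY : inter P.F (P.fib q + P.fib p) = 0 := by rw [inter_comm, hY, hN.F_sq, mul_zero]
  have h1 := h1_pos h P hq
  have h2 : chi (-(P.fib q + P.fib p)) = 0 := by
    have h3 := hA.rr (-(P.fib q + P.fib p))
    rw [hz.chi, ← S.B_apply, ← S.B_apply, map_neg, map_neg, map_neg, AddMonoidHom.neg_apply,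
      S.B_apply, S.B_apply, inter_comm S.kap, hY, hY, hFY, hFK] at h3
    omega
  have h3 : H0 (-(P.fib q + P.fib p)) = ⊥ := Rul.bot_of_neg hA (Hd.nef_H hA) (by
    rw [← S.B_apply, map_neg, S.B_apply, inter_comm, hY, inter_comm]
    linarith [hN.F_pos])
  rw [Surf.h1, h2, h0_bot h3, sub_neg_eq_add] at h1
  obtain ⟨w, hw, w0⟩ := (Submodule.ne_bot_iff _).1
    (Hd.ne_bot_of_pos (X := S.kap + (P.fib q + P.fib p)) (by omega))
  have h4 := vert_of hN (eff_of_mem hA.toLoc2 hw w0) (by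
    rw [inter_comm, inter_lin hA.toRR _ _ w0, hA.add, hK, hY, hN.F_sq]
    rfl)
  have h5 : ∀ C, P.Hor C → (S.vd X + div S.W w) C = 0 := fun C hC => by
    have := h4 C hC
    simp only [hz.vd, Finsupp.add_apply, Finsupp.sub_apply, hf _ C hC, hz.M_hor C hC] at this ⊢
    omega
  have h6 : inter (S.vd X + div S.W w) (S.vd X + div S.W w) = 0 := by
    rw [inter_lin hA.toRR _ _ w0, inter_comm, inter_lin hA.toRR _ _ w0, hz.vd, ← S.B_apply]
    simp only [map_sub, AddMonoidHom.sub_apply, S.B_apply, inter_comm M S.kap, hz.KK, hz.KM, hz.MM,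
      sub_zero]
  have hV : S.vd X + div S.W w + M = S.kap + div S.W w := by
    rw [hz.vd]
    abel
  obtain ⟨V, hV'⟩ : ∃ V, S.vd X + div S.W w = V := ⟨_, rfl⟩
  rw [hV'] at h5 h6 hV
  choose c hc using hB.ex_crv
  have h7 : ∀ C r, P.Over C r → V C = V (c r) := fun C r hC => by
    have h8 := h.zar P V h5 h6 r C (c r) hC (hc r)
    rw [hz.fib_over C r hC, hz.fib_over _ r (hc r)] at h8
    exact mul_right_cancel₀ (hz.m_pos r).ne' h8
  have hfin : (Function.support fun r => -(-V (c r) / m r)).Finite := by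
    refine Set.Finite.of_injOn (f := c) (t := V.support) (fun r hr => ?_)
      (fun p _ q _ e => hB.uniq _ p q (hc p) (e ▸ hc q)) V.support.finite_toSet
    exact Finsupp.mem_support_iff.2 fun e => hr (by simp [e])
  have h8 : ∀ C, V C ≤ P.pull (toFs fun r => -(-V (c r) / m r)) C ∧
      P.pull (toFs fun r => -(-V (c r) / m r)) C ≤ V C + M C := fun C => by
    rcases hB.dich C with hC | ⟨r, hC⟩
    · rw [hB.pull_hor C hC, h5 C hC, hz.M_hor C hC]
      exact ⟨le_rfl, le_rfl⟩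
    · rw [hB.pull_over C r hC, toFs_apply hfin, hz.fib_over C r hC, hz.M_over C r hC, h7 C r hC]
      have e1 := Int.mul_ediv_add_emod (-V (c r)) (m r)
      have e2 := Int.emod_nonneg (-V (c r)) (hz.m_pos r).ne'
      have e3 := Int.emod_lt_of_pos (-V (c r)) (hz.m_pos r)
      constructor <;> linarith
  generalize (toFs fun r => -(-V (c r) / m r)) = a at h8
  refine ⟨w, a, w0, ?_, hV' ▸ fun C => (h8 C).1⟩
  have h9 : LL ℂ a = ⊥ := by
    refine (Submodule.eq_bot_iff _).2 fun g hg => ?_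
    have e1 : (g : K) ∈ H0 (S.kap + div S.W w) :=
      secOn_mono (fun C _ => ⟨trivial, hV ▸ (h8 C).2⟩) ((hB.mem_pull a g).2 ⟨g, hg, rfl⟩)
    have e2 : (g : K) * w ∈ H0 S.kap := (mem_secOn_div hA.toLoc2 w0 _).1 e1
    rw [hz.pg] at e2
    exact Subtype.ext ((mul_eq_zero.1 e2).resolve_right w0)
  have h10 := P019P.RR a
  rw [h9, finrank_bot, hz.gen] at h10
  omega

end Vale.Agent.P297Z.Sf.En
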