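import Vale.Agent.P297Y.En.Api
import Vale.Agent.P297Y.En.Wra
import Vale.Agent.P297Y.En.Wrc
import Vale.Agent.P297Y.En.Tors
import Vale.Agent.P297Y.En.Lem
import Vale.Agent.P297Y.En.Wr1
import Vale.Agent.P297Y.En.Wr2
import Vale.Agent.P297Y.En.Wr3
import Vale.Agent.P297Y.En.Wrn
import Vale.Agent.P297Y.En.G
import Vale.Agent.P297Y.En.Zr
import Vale.Agent.P297Y.En.Pen
import Vale.Agent.P297Y.En.Pen2
import Vale.Agent.P297Y.En.Fin
import Vale.Agent.P297Y.En.Fin1

/-! P297, positive irregularity: the surfaces with nef canonical class. -/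

set_option linter.all false

namespace Vale.Agent.P297Z.Sf.En

open Vale.Agent.P297Y.En

theorem endg : ENDG :=
  endg_of api (pend der penb) (ratb der penb (pend der penb)) (zr logh)
    (wrn red herm (wr1 wra) (wr2 wra (wrc wra) (wr1 wra)) wr3) g2
    g1a g1b pen1 pen2 (fin2 tors) fin1a (fin1b (lema tors) (lemb tors fibc)) (finc gen0 fibc)

end Vale.Agent.P297Z.Sf.En
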